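import Mathlib
import Crest.Agent.R249.B2Iso_474
import Crest.Agent.R247.Ms1_322

-- ▼ part N207/F/InjA
section

/-!
# Row 207, block F3 (helper26): fibres of a bi-Lipschitz "partial covering" are bounded by volume

`Cov Ψ R`: `Ψ : E → X` is `2`-Lipschitz, `2`-co-Lipschitz and locally injective on `ball 0 R`.
`Cov.card_le`: if the fibre over `q` has `N` points in the ball of radius `ρ`, then
`N * μ (ball q t) ≤ 2 ^ n * vol (closedBall 0 (ρ + 2 t))`.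
-/

set_option autoImplicit false

open Set Metric Filter Topology MeasureTheory
open scoped ENNReal NNReal

noncomputable section

namespace Crest.Agent.N207.F

section cov

variable {E : Type*} [NormedAddCommGroup E] {X : Type*} [MetricSpace X]

/-- Lipschitz, co-Lipschitz and locally injective on a ball -/
structure Cov (Ψ : E → X) (R : ℝ) : Prop where
  lip : ∀ x ∈ ball (0 : E) R, ∀ y ∈ ball (0 : E) R, dist (Ψ x) (Ψ y) ≤ 2 * ‖x - y‖
  colip : ∀ x q, ‖x‖ + 2 * dist (Ψ x) q < R → ∃ x', Ψ x' = q ∧ ‖x' - x‖ ≤ 2 * dist (Ψ x) q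
  locinj : ∀ x ∈ ball (0 : E) R, ∃ ε > 0, InjOn Ψ (ball x ε)

/-- any two points are joined by a constant speed minimiser -/
def Geo (X : Type*) [MetricSpace X] : Prop :=
  ∀ p q : X, ∃ γ : ℝ → X, γ 0 = p ∧ γ 1 = q ∧ ∀ s t, dist (γ s) (γ t) ≤ |s - t| * dist p q

variable {Ψ : E → X} {R : ℝ}

theorem Cov.unif [ProperSpace E] (h : Cov Ψ R) {ρ : ℝ} (hρ : ρ < R) :
    ∃ η > 0, ∀ x y : E, ‖x‖ ≤ ρ → ‖x - y‖ < η → Ψ x = Ψ y → x = y := by
  have hin : ∀ x : closedBall (0 : E) ρ, (x : E) ∈ ball (0 : E) R := fun x =>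
    closedBall_subset_ball hρ x.2
  choose ε hε hinj using fun x : closedBall (0 : E) ρ => h.locinj x (hin x)
  obtain ⟨δ, hδ, hcov⟩ := lebesgue_number_lemma_of_metric (isCompact_closedBall (0 : E) ρ)
    (c := fun x : closedBall (0 : E) ρ => ball (x : E) (ε x)) (fun _ => isOpen_ball)
    (fun x hx => mem_iUnion.2 ⟨⟨x, hx⟩, mem_ball_self (hε _)⟩)
  refine ⟨δ, hδ, fun x y hx hxy he => ?_⟩
  obtain ⟨i, hi⟩ := hcov x (mem_closedBall_zero_iff.2 hx)
  refine hinj i (hi (mem_ball_self hδ)) (hi ?_) he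
  rw [mem_ball, dist_comm, dist_eq_norm]; exact hxy

theorem Cov.many [ProperSpace E] (h : Cov Ψ R) (hg : Geo X) {N : ℕ} {f : Fin N → E}
    (hf : Function.Injective f) {ρ : ℝ} (hn : ∀ i, ‖f i‖ ≤ ρ) {q q' : X} (hq : ∀ i, Ψ (f i) = q)
    (hρ : ρ + 2 * dist q q' < R) :
    ∃ f' : Fin N → E, Function.Injective f' ∧ (∀ i, ‖f' i‖ ≤ ρ + 2 * dist q q') ∧
      ∀ i, Ψ (f' i) = q' := by
  obtain ⟨η, hη, hu⟩ := h.unif hρ
  obtain ⟨γ, h0, h1, hγ⟩ := hg q q'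
  set d := dist q q' with hd
  have hd0 : 0 ≤ d := dist_nonneg
  obtain ⟨m, hm⟩ := exists_nat_gt (4 * d / η)
  have hm0 : (0 : ℝ) < m := lt_of_le_of_lt (by positivity) hm
  have hmη : 4 * (d / m) < η := by
    rw [div_lt_iff₀ hη] at hm
    rw [← mul_div_assoc, div_lt_iff₀ hm0]; linarith
  have key : ∀ k : ℕ, k ≤ m → ∃ f' : Fin N → E, Function.Injective f' ∧
      (∀ i, ‖f' i‖ ≤ ρ + 2 * (k * (d / m))) ∧ ∀ i, Ψ (f' i) = γ (k / m) := by
    intro k
    induction k with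
    | zero =>
      intro _
      exact ⟨f, hf, fun i => by simpa using hn i, fun i => by simp [h0, hq i]⟩
    | succ k ih =>
      intro hk
      obtain ⟨g, hg1, hg2, hg3⟩ := ih (Nat.le_of_succ_le hk)
      have hk' : ((k : ℝ) + 1) ≤ m := by exact_mod_cast hk
      have hstep : dist (γ (k / m)) (γ (((k + 1 : ℕ) : ℝ) / m)) ≤ d / m := by
        refine (hγ _ _).trans (le_of_eq ?_)
        have : (k : ℝ) / m - ((k + 1 : ℕ) : ℝ) / m = -(1 / m) := by push_cast; ring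
        rw [this, abs_neg, abs_of_pos (by positivity)]; ring
      have hle : ((k : ℝ) + 1) * (d / m) ≤ d := by
        calc ((k : ℝ) + 1) * (d / m) ≤ m * (d / m) := by gcongr
          _ = d := by field_simp
      have hex : ∀ i, ∃ x', Ψ x' = γ (((k + 1 : ℕ) : ℝ) / m) ∧ ‖x' - g i‖ ≤ 2 * (d / m) := by
        intro i
        obtain ⟨x', e1, e2⟩ := h.colip (g i) (γ (((k + 1 : ℕ) : ℝ) / m)) (by
          rw [hg3 i]; have := hg2 i; nlinarith)
        rw [hg3 i] at e2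
        exact ⟨x', e1, by linarith⟩
      choose g' e1 e2 using hex
      refine ⟨g', fun i j hij => hg1 (hu (g i) (g j) ?_ ?_ (by rw [hg3, hg3])), fun i => ?_, e1⟩
      · have := hg2 i
        have h3 : 0 ≤ d / m := by positivity
        nlinarith
      · have a1 := e2 i
        have a2 := e2 j
        have : g i - g j = (g' j - g j) - (g' i - g i) := by rw [hij]; abel
        rw [this]
        exact lt_of_le_of_lt (norm_sub_le _ _) (by linarith)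
      · have a1 := e2 i
        have a2 := hg2 i
        have : g' i = (g' i - g i) + g i := by abel
        rw [this]
        refine (norm_add_le _ _).trans ?_
        push_cast; linarith
  obtain ⟨g, hg1, hg2, hg3⟩ := key m le_rfl
  refine ⟨g, hg1, fun i => (hg2 i).trans (le_of_eq ?_), fun i => ?_⟩
  · field_simp
  · rw [hg3, div_self hm0.ne', h1]

end cov

section meas

variable {n : ℕ} {X : Type*} [MetricSpace X] [MeasurableSpace X] [BorelSpace X]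

local notation "𝔼" => EuclideanSpace ℝ (Fin n)

theorem image_le_of_lip {Ψ : 𝔼 → X} {s : Set 𝔼} {K : ℝ≥0} (h : LipschitzOnWith K Ψ s) :
    (μHE[n] : Measure X) (Ψ '' s) ≤ (K : ℝ≥0∞) ^ n * volume s := by
  rw [← EuclideanSpace.euclideanHausdorffMeasure_eq_volume n,
    Measure.euclideanHausdorffMeasure_def, Measure.euclideanHausdorffMeasure_def,
    Measure.smul_apply, Measure.smul_apply]
  have := h.hausdorffMeasure_image_le (d := (n : ℝ)) (Nat.cast_nonneg n)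
  rw [ENNReal.rpow_natCast] at this
  simp only [ENNReal.smul_def, smul_eq_mul]
  rw [mul_left_comm]
  gcongr

theorem Cov.card_le {Ψ : 𝔼 → X} {R : ℝ} (h : Cov Ψ R) (hg : Geo X) {N : ℕ} {f : Fin N → 𝔼}
    (hf : Function.Injective f) {ρ t : ℝ} (hn : ∀ i, ‖f i‖ ≤ ρ) {q : X} (hq : ∀ i, Ψ (f i) = q)
    (hρ : ρ + 2 * t < R) :
    (N : ℝ≥0∞) * (μHE[n] : Measure X) (ball q t)
      ≤ 2 ^ n * volume (closedBall (0 : 𝔼) (ρ + 2 * t)) := by
  obtain ⟨η, hη, hu⟩ := h.unif hρ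
  set μ : Measure X := μHE[n] with hμ
  set B := closedBall (0 : 𝔼) (ρ + 2 * t) with hB
  set u := TopologicalSpace.denseSeq 𝔼 with hu'
  set D : ℕ → Set 𝔼 := disjointed fun j => ball (u j) (η / 2) with hD
  set P : ℕ → Set 𝔼 := fun j => D j ∩ B with hP
  have hDm : ∀ j, MeasurableSet (D j) :=
    MeasurableSet.disjointed fun j => measurableSet_ball
  have hPm : ∀ j, MeasurableSet (P j) := fun j => (hDm j).inter measurableSet_closedBall
  have hPd : Pairwise (Function.onFun Disjoint P) := fun i j hij =>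
    (disjoint_disjointed (fun j => ball (u j) (η / 2)) hij).mono inter_subset_left
      inter_subset_left
  have hcov : ∀ x, ∃ j, x ∈ D j := by
    intro x
    have h1 : x ∈ ⋃ j, ball (u j) (η / 2) := by
      obtain ⟨j, hj⟩ := Metric.denseRange_iff.1 (TopologicalSpace.denseRange_denseSeq 𝔼) x (η / 2)
        (by positivity)
      exact mem_iUnion.2 ⟨j, hj⟩
    rw [← iUnion_disjointed] at h1
    exact mem_iUnion.1 h1
  have hU : (⋃ j, P j) = B := by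
    refine subset_antisymm (iUnion_subset fun j => inter_subset_right) fun x hx => ?_
    obtain ⟨j, hj⟩ := hcov x
    exact mem_iUnion.2 ⟨j, hj, hx⟩
  have hBR : B ⊆ ball 0 R := closedBall_subset_ball hρ
  have hlip : ∀ j, LipschitzOnWith 2 Ψ (P j) := fun j =>
    LipschitzOnWith.of_dist_le_mul fun x hx y hy => by
      have := h.lip x (hBR hx.2) y (hBR hy.2)
      rw [dist_eq_norm]; exact_mod_cast this
  set H : ℕ → Set X := fun j => toMeasurable μ (Ψ '' P j) with hH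
  have hpt : ∀ q' ∈ ball q t, (N : ℝ≥0∞) ≤ ∑' j, (H j).indicator 1 q' := by
    intro q' hq'
    have hd : dist q q' < t := by rw [dist_comm]; exact hq'
    obtain ⟨g, hg1, hg2, hg3⟩ := h.many hg hf hn (q' := q') hq (by linarith)
    have hgB : ∀ i, ‖g i‖ ≤ ρ + 2 * t := fun i => (hg2 i).trans (by linarith)
    choose J hJ using fun i => hcov (g i)
    have hJi : Function.Injective J := by
      intro i j hij
      refine hg1 (hu _ _ (hgB i) ?_ (by rw [hg3, hg3]))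
      have a1 := disjointed_subset (fun j => ball (u j) (η / 2)) _ (hJ i)
      have a2 := disjointed_subset (fun j => ball (u j) (η / 2)) _ (hJ j)
      rw [hij] at a1
      rw [← dist_eq_norm]
      have := dist_triangle_right (g i) (g j) (u (J j))
      rw [mem_ball] at a1 a2
      linarith
    calc (N : ℝ≥0∞) = ∑ j ∈ Finset.univ.image J, (H j).indicator (1 : X → ℝ≥0∞) q' := by
          rw [Finset.sum_image fun i _ j _ hij => hJi hij]
          have : ∀ i, (H (J i)).indicator (1 : X → ℝ≥0∞) q' = 1 := fun i =>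
            indicator_of_mem (subset_toMeasurable μ (Ψ '' P (J i))
              ⟨g i, ⟨hJ i, mem_closedBall_zero_iff.2 (hgB i)⟩, hg3 i⟩) _
          simp [this]
      _ ≤ _ := ENNReal.sum_le_tsum _
  calc (N : ℝ≥0∞) * μ (ball q t) = ∫⁻ _ in ball q t, (N : ℝ≥0∞) ∂μ := by
        rw [setLIntegral_const]
    _ ≤ ∫⁻ q' in ball q t, ∑' j, (H j).indicator 1 q' ∂μ :=
        setLIntegral_mono' measurableSet_ball hpt
    _ ≤ ∫⁻ q', ∑' j, (H j).indicator 1 q' ∂μ := setLIntegral_le_lintegral _ _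
    _ = ∑' j, μ (H j) := by
        rw [lintegral_tsum fun j =>
          (measurable_one.indicator (measurableSet_toMeasurable _ _)).aemeasurable]
        exact tsum_congr fun j => lintegral_indicator_one (measurableSet_toMeasurable _ _)
    _ ≤ ∑' j, 2 ^ n * volume (P j) := by
        refine ENNReal.tsum_le_tsum fun j => ?_
        rw [hH]
        simp only [measure_toMeasurable]
        simpa using image_le_of_lip (hlip j)
    _ = 2 ^ n * volume B := by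
        rw [ENNReal.tsum_mul_left, ← measure_iUnion hPd hPm, hU]

end meas

end Crest.Agent.N207.F

end
end

-- ▼ part N207/F/InjB
section

/-!
# Row 207, block F3 (helper26): bounded fibres and almost affine deck maps give injectivity

`Cov.injOn`: if the fibres of `Ψ` have at most `K` points and the local deck maps have small second
derivative, `Ψ` is injective on a ball of definite size (centre of mass of a cluster of a fibre).
-/

set_option autoImplicit false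
set_option linter.unusedSectionVars false

open Set Metric Filter Topology
open scoped RealInnerProductSpace

noncomputable section

namespace Crest.Agent.N207.F

/-- second derivative at a point -/
def D2 (φ : ℝ → ℝ) (t r : ℝ) : Prop :=
  ∃ φ' : ℝ → ℝ, (∀ᶠ s in 𝓝 t, HasDerivAt φ (φ' s) s) ∧ HasDerivAt φ' r t

theorem D2.congr {φ ψ : ℝ → ℝ} {t r : ℝ} (h : D2 φ t r) (he : ψ =ᶠ[𝓝 t] φ) : D2 ψ t r := by
  obtain ⟨φ', h1, h2⟩ := h
  refine ⟨φ', ?_, h2⟩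
  filter_upwards [h1, he.eventuallyEq_nhds] with s a b using a.congr_of_eventuallyEq b

theorem D2.deriv2 {φ : ℝ → ℝ} {t r : ℝ} (h : D2 φ t r) : deriv^[2] φ t = r := by
  obtain ⟨φ', h1, h2⟩ := h
  have h3 : deriv φ =ᶠ[𝓝 t] φ' := by filter_upwards [h1] with s a using a.deriv
  show deriv (deriv φ) t = r
  rw [h3.deriv_eq, h2.deriv]

theorem D2.sum {ι : Type*} {S : Finset ι} {φ : ι → ℝ → ℝ} {t : ℝ} {r : ι → ℝ}
    (h : ∀ i ∈ S, D2 (φ i) t (r i)) : D2 (fun s => ∑ i ∈ S, φ i s) t (∑ i ∈ S, r i) := by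
  classical
  choose! φ' h1 h2 using h
  refine ⟨fun s => ∑ i ∈ S, φ' i s, ?_, HasDerivAt.fun_sum h2⟩
  filter_upwards [(Filter.eventually_all_finset S).2 h1] with s a using HasDerivAt.fun_sum a

variable {E : Type*} [NormedAddCommGroup E] [InnerProductSpace ℝ E] {X : Type*} [MetricSpace X]

theorem D2_sq {τ : E → E} {x v a : E} {t : ℝ} (hτ : ContDiffAt ℝ 2 τ (x + t • v)) :
    D2 (fun s => ‖τ (x + s • v) - a‖ ^ 2) t
      (2 * (‖fderiv ℝ τ (x + t • v) v‖ ^ 2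
        + ⟪τ (x + t • v) - a, fderiv ℝ (fderiv ℝ τ) (x + t • v) v v⟫)) := by
  have hl : ∀ s : ℝ, HasDerivAt (fun s : ℝ => x + s • v) v s := fun s => by
    simpa using ((hasDerivAt_id s).smul_const v).const_add x
  have h1 : ∀ᶠ z in 𝓝 (x + t • v), DifferentiableAt ℝ τ z := by
    filter_upwards [hτ.eventually (by simp)] with z hz using hz.differentiableAt (by simp)
  have h2 : ∀ᶠ s in 𝓝 t, HasDerivAt (fun s : ℝ => τ (x + s • v) - a)
      (fderiv ℝ τ (x + s • v) v) s := by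
    filter_upwards [(hl t).continuousAt.eventually h1] with s hs
    exact (hs.hasFDerivAt.comp_hasDerivAt s (hl s)).sub_const a
  have h3 : HasDerivAt (fun s : ℝ => fderiv ℝ τ (x + s • v) v)
      (fderiv ℝ (fderiv ℝ τ) (x + t • v) v v) t := by
    have h4 : DifferentiableAt ℝ (fderiv ℝ τ) (x + t • v) :=
      (hτ.fderiv_right (m := 1) (by norm_num)).differentiableAt (by simp)
    have h5 : HasDerivAt (fun s : ℝ => fderiv ℝ τ (x + s • v))
        (fderiv ℝ (fderiv ℝ τ) (x + t • v) v) t := h4.hasFDerivAt.comp_hasDerivAt t (hl t)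
    have h6 := h5.clm_apply (hasDerivAt_const t v)
    rwa [map_zero, add_zero] at h6
  refine ⟨fun s => 2 * ⟪τ (x + s • v) - a, fderiv ℝ τ (x + s • v) v⟫, ?_, ?_⟩
  · filter_upwards [h2] with s hs using hs.norm_sq
  · have h6 := (h2.self_of_nhds.inner ℝ h3).const_mul 2
    rw [real_inner_self_eq_norm_sq] at h6
    rw [add_comm] at h6
    exact h6

/-- local deck maps with controlled first and second derivative -/
def Deck (Ψ : E → X) (R β : ℝ) : Prop :=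
  ∀ x ∈ ball (0 : E) R, ∀ y ∈ ball (0 : E) R, Ψ x = Ψ y → ∃ τ : E → E, τ x = y ∧
    ContDiffAt ℝ 2 τ x ∧ (∀ᶠ z in 𝓝 x, Ψ (τ z) = Ψ z) ∧
    ∀ u, ‖u‖ ≤ 2 * ‖fderiv ℝ τ x u‖ ∧ ‖fderiv ℝ (fderiv ℝ τ) x u u‖ ≤ β * ‖u‖ ^ 2

/-- fibres have at most `K` points -/
def Fib (Ψ : E → X) (R : ℝ) (K : ℕ) : Prop :=
  ∀ (N : ℕ) (f : Fin N → E) (q : X), Function.Injective f → (∀ i, ‖f i‖ ≤ R) →
    (∀ i, Ψ (f i) = q) → N ≤ K

variable {Ψ : E → X} {R β : ℝ} {K : ℕ}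

theorem Fib.finset (h : Fib Ψ R K) {S : Finset E} {q : X} (h1 : ∀ y ∈ S, ‖y‖ ≤ R)
    (h2 : ∀ y ∈ S, Ψ y = q) : S.card ≤ K :=
  h S.card (fun i => (S.equivFin.symm i : E)) q
    (Subtype.val_injective.comp S.equivFin.symm.injective)
    (fun i => h1 _ (S.equivFin.symm i).2) (fun i => h2 _ (S.equivFin.symm i).2)

theorem Fib.finite (h : Fib Ψ R K) {S : Set E} {q : X} (h1 : ∀ y ∈ S, ‖y‖ ≤ R)
    (h2 : ∀ y ∈ S, Ψ y = q) : S.Finite := by
  by_contra hS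
  obtain ⟨T, hT, hc⟩ := Set.Infinite.exists_subset_card_eq hS (K + 1)
  have := h.finset (S := T) (fun y hy => h1 y (hT hy)) (fun y hy => h2 y (hT hy))
  omega

/-- an annulus of definite modulus around `a` that contains no point of the fibre -/
theorem Fib.gap (h : Fib Ψ R K) {a : E} {s₀ L : ℝ} (hs : 0 < s₀) (hL : 1 < L)
    (hR : ‖a‖ + s₀ * L ^ (K + 1) ≤ R) :
    ∃ s, s₀ ≤ s ∧ L * s ≤ s₀ * L ^ (K + 1) ∧ ∀ y, Ψ y = Ψ a → ‖y - a‖ ≤ L * s → ‖y - a‖ ≤ s := by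
  by_contra hcon
  have hpow : ∀ j : Fin (K + 1), L * (s₀ * L ^ (j : ℕ)) ≤ s₀ * L ^ (K + 1) := fun j => by
    have : L ^ ((j : ℕ) + 1) ≤ L ^ (K + 1) := pow_le_pow_right₀ hL.le (by omega)
    calc L * (s₀ * L ^ (j : ℕ)) = s₀ * L ^ ((j : ℕ) + 1) := by ring
      _ ≤ _ := by gcongr
  have hex : ∀ j : Fin (K + 1), ∃ y, Ψ y = Ψ a ∧ ‖y - a‖ ≤ L * (s₀ * L ^ (j : ℕ)) ∧
      s₀ * L ^ (j : ℕ) < ‖y - a‖ := by
    intro j
    by_contra hj
    refine hcon ⟨s₀ * L ^ (j : ℕ), le_mul_of_one_le_right hs.le (one_le_pow₀ hL.le), hpow j,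
      fun y h1 h2 => ?_⟩
    by_contra h3
    exact hj ⟨y, h1, h2, not_le.1 h3⟩
  choose f h1 h2 h3 using hex
  have hlt : ∀ i j : Fin (K + 1), i < j → f i ≠ f j := by
    intro i j hij he
    have a1 := h2 i
    have a2 := h3 j
    rw [he] at a1
    have : L ^ ((i : ℕ) + 1) ≤ L ^ (j : ℕ) := pow_le_pow_right₀ hL.le hij
    have a3 : L * (s₀ * L ^ (i : ℕ)) ≤ s₀ * L ^ (j : ℕ) := by
      calc L * (s₀ * L ^ (i : ℕ)) = s₀ * L ^ ((i : ℕ) + 1) := by ring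
        _ ≤ _ := by gcongr
    linarith
  have := h (K + 1) f (Ψ a) (fun i j hij => by
    rcases lt_trichotomy i j with hh | hh | hh
    · exact absurd hij (hlt i j hh)
    · exact hh
    · exact absurd hij.symm (hlt j i hh)) (fun i => by
      have e : f i = (f i - a) + a := by abel
      rw [e]
      exact (norm_add_le _ _).trans (by linarith [h2 i, hpow i])) h1
  omega

/-- the local structure of the clusters -/
theorem cluster_local (h : Cov Ψ R) (hd : Deck Ψ R β) {a : E} {σ : ℝ} (hσ : 0 < σ)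
    (hR : ‖a‖ + 20 * σ < R) {C : E → Finset E}
    (hC : ∀ x y, y ∈ C x ↔ ‖y - a‖ < 10 * σ ∧ Ψ y = Ψ x)
    (hgap : ∀ y, Ψ y = Ψ a → ‖y - a‖ ≤ 20 * σ → ‖y - a‖ ≤ σ) {x : E} (hx : ‖x - a‖ ≤ σ) :
    ∃ τ : E → E → E, (∀ y ∈ C x, τ y x = y ∧ ContDiffAt ℝ 2 (τ y) x ∧
      ∀ u, ‖u‖ ≤ 2 * ‖fderiv ℝ (τ y) x u‖ ∧ ‖fderiv ℝ (fderiv ℝ (τ y)) x u u‖ ≤ β * ‖u‖ ^ 2) ∧
      ∀ᶠ z in 𝓝 x, InjOn (fun y => τ y z) (C x) ∧ ∀ w, w ∈ C z ↔ ∃ y ∈ C x, τ y z = w := by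
  have hin : ∀ y : E, ‖y - a‖ ≤ 20 * σ → ‖y‖ < R := fun y hy => by
    have e : y = (y - a) + a := by abel
    rw [e]
    exact lt_of_le_of_lt (norm_add_le _ _) (by linarith)
  have hb : ∀ y : E, ‖y - a‖ ≤ 20 * σ → y ∈ ball (0 : E) R := fun y hy =>
    mem_ball_zero_iff.2 (hin y hy)
  have hxb := hb x (by linarith)
  have hyb : ∀ y ∈ C x, y ∈ ball (0 : E) R := fun y hy => hb y (by linarith [((hC x y).1 hy).1])
  choose! τ t1 t2 t3 t4 using fun y (hy : y ∈ C x) => hd x hxb y (hyb y hy) ((hC x y).1 hy).2.symm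
  choose! ε e1 e2 using fun y (hy : y ∈ C x) => h.locinj y (hyb y hy)
  refine ⟨τ, fun y hy => ⟨t1 y hy, t2 y hy, t4 y hy⟩, ?_⟩
  have hcont : ∀ y ∈ C x, Tendsto (τ y) (𝓝 x) (𝓝 y) := fun y hy => by
    have := (t2 y hy).continuousAt.tendsto
    rwa [t1 y hy] at this
  have v1 : ∀ᶠ z in 𝓝 x, ∀ y ∈ C x, Ψ (τ y z) = Ψ z := (Filter.eventually_all_finset _).2 t3
  have v2 : ∀ᶠ z in 𝓝 x, ∀ y ∈ C x, τ y z ∈ ball y (ε y) :=
    (Filter.eventually_all_finset _).2 fun y hy => hcont y hy (ball_mem_nhds y (e1 y hy))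
  have v3 : ∀ᶠ z in 𝓝 x, ∀ y ∈ C x, ‖τ y z - a‖ < 10 * σ :=
    (Filter.eventually_all_finset _).2 fun y hy =>
      ((hcont y hy).sub_const a).norm.eventually (gt_mem_nhds ((hC x y).1 hy).1)
  have v4 : ∀ᶠ z in 𝓝 x, ∀ y ∈ C x, ∀ y' ∈ C x, y ≠ y' → τ y z ≠ τ y' z :=
    (Filter.eventually_all_finset _).2 fun y hy => (Filter.eventually_all_finset _).2
      fun y' hy' => by
        by_cases hne : y = y'
        · exact Eventually.of_forall fun z hz => absurd hne hz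
        · have := ((hcont y hy).sub (hcont y' hy')).eventually_ne (sub_ne_zero.2 hne)
          filter_upwards [this] with z hz _ using sub_ne_zero.1 hz
  have hz0 : Tendsto (fun z => 4 * ‖z - x‖) (𝓝 x) (𝓝 0) := by
    have : Continuous fun z : E => 4 * ‖z - x‖ := by fun_prop
    simpa using this.tendsto x
  have v5 : ∀ᶠ z in 𝓝 x, ∀ y ∈ C x, 4 * ‖z - x‖ < ε y :=
    (Filter.eventually_all_finset _).2 fun y hy => hz0.eventually (gt_mem_nhds (e1 y hy))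
  have v6 : ∀ᶠ z in 𝓝 x, 4 * ‖z - x‖ < σ := hz0.eventually (gt_mem_nhds hσ)
  filter_upwards [v1, v2, v3, v4, v5, v6] with z w1 w2 w3 w4 w5 w6
  refine ⟨fun y hy y' hy' he => by_contra fun hne => w4 y hy y' hy' hne he, fun w => ⟨fun hw => ?_,
    fun ⟨y, hy, he⟩ => he ▸ (hC z _).2 ⟨w3 y hy, w1 y hy⟩⟩⟩
  obtain ⟨hw1, hw2⟩ := (hC z w).1 hw
  have hza : ‖z - a‖ ≤ 2 * σ := by
    have e : z - a = (z - x) + (x - a) := by abel
    rw [e]
    exact (norm_add_le _ _).trans (by linarith [norm_nonneg (z - x)])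
  have hzb := hb z (by linarith)
  have hab := hb a (by rw [sub_self, norm_zero]; linarith)
  have hwn : ‖w‖ ≤ ‖a‖ + 10 * σ := by
    have e : w = (w - a) + a := by abel
    rw [e]
    exact (norm_add_le _ _).trans (by linarith)
  -- the gap at `z`
  have d1 : dist (Ψ w) (Ψ a) ≤ 4 * σ := by
    rw [hw2]; exact (h.lip z hzb a hab).trans (by linarith)
  obtain ⟨y₁, a1, a2⟩ := h.colip w (Ψ a) (by linarith)
  have a3 : ‖y₁ - a‖ ≤ σ := hgap y₁ a1 (by
    have e : y₁ - a = (y₁ - w) + (w - a) := by abel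
    rw [e]
    exact (norm_add_le _ _).trans (by linarith))
  have a4 : ‖w - a‖ ≤ 9 * σ := by
    have e : w - a = (y₁ - a) - (y₁ - w) := by abel
    rw [e]
    exact (norm_sub_le _ _).trans (by linarith)
  have d2 : dist (Ψ w) (Ψ x) ≤ 2 * ‖z - x‖ := by rw [hw2]; exact h.lip z hzb x hxb
  obtain ⟨y, b1, b2⟩ := h.colip w (Ψ x) (by linarith)
  have b3 : y ∈ C x := (hC x y).2 ⟨by
    have e : y - a = (y - w) + (w - a) := by abel
    rw [e]
    exact lt_of_le_of_lt (norm_add_le _ _) (by linarith), b1⟩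
  refine ⟨y, b3, e2 y b3 (w2 y b3) ?_ (by rw [w1 y b3, hw2])⟩
  rw [mem_ball, dist_comm, dist_eq_norm]
  linarith [w5 y b3]

theorem Cov.injOn [ProperSpace E] (h : Cov Ψ R) (hd : Deck Ψ R β) {R' : ℝ} (hR' : R' < R)
    (hK : Fib Ψ R' K) {ρ : ℝ} (hρ : 0 < ρ) (h1 : 3 * ρ * (20 * (K + 1)) ^ (K + 1) ≤ R')
    (h2 : 8 * β * ρ * (20 * (K + 1)) ^ (K + 1) < 1) : InjOn Ψ (ball 0 ρ) := by
  classical
  intro a ha b hb hab
  by_contra hne
  rw [mem_ball_zero_iff] at ha hb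
  set k : ℝ := K + 1 with hk
  have hk1 : 1 ≤ k := by rw [hk]; linarith [Nat.cast_nonneg (α := ℝ) K]
  set P : ℝ := (20 * k) ^ (K + 1) with hP
  have hP1 : 1 ≤ P := one_le_pow₀ (by linarith)
  obtain ⟨s, s1, s2, s3⟩ := hK.gap (a := a) (s₀ := 2 * ρ) (L := 20 * k) (by positivity)
    (by linarith) (by rw [← hP]; nlinarith)
  rw [← hP] at s2
  have hs : 0 < s := by linarith
  set σ := k * s with hσd
  have hσ : 0 < σ := by positivity
  have hsσ : s ≤ σ := le_mul_of_one_le_left hs.le hk1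
  have h20 : 20 * σ ≤ 2 * ρ * P := by rw [hσd]; linarith
  have hR1 : ‖a‖ + 20 * σ ≤ R' := by nlinarith
  have hin : ∀ y : E, ‖y - a‖ < 10 * σ → ‖y‖ ≤ R' := fun y hy => by
    have e : y = (y - a) + a := by abel
    rw [e]
    exact (norm_add_le _ _).trans (by linarith)
  have hfin : ∀ x, {y | ‖y - a‖ < 10 * σ ∧ Ψ y = Ψ x}.Finite := fun x =>
    hK.finite (q := Ψ x) (fun y hy => hin y hy.1) (fun y hy => hy.2)
  set C : E → Finset E := fun x => (hfin x).toFinset with hCd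
  have hC : ∀ x y, y ∈ C x ↔ ‖y - a‖ < 10 * σ ∧ Ψ y = Ψ x := fun x y => by
    rw [hCd]; simp
  have hgap : ∀ y, Ψ y = Ψ a → ‖y - a‖ ≤ 20 * σ → ‖y - a‖ ≤ s := fun y e1 e2 =>
    s3 y e1 (by rw [hσd] at e2; linarith)
  have hloc := fun x (hx : ‖x - a‖ ≤ σ) => cluster_local h hd hσ (lt_of_le_of_lt hR1 hR') hC
    (fun y e1 e2 => (hgap y e1 e2).trans hsσ) hx
  set f : E → ℝ := fun x => ∑ y ∈ C x, ‖y - a‖ ^ 2 with hf
  -- local formulas
  have hform : ∀ x, ‖x - a‖ ≤ σ → ∃ τ : E → E → E, (∀ y ∈ C x, τ y x = y ∧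
      ContDiffAt ℝ 2 (τ y) x ∧ ∀ u, ‖u‖ ≤ 2 * ‖fderiv ℝ (τ y) x u‖ ∧
        ‖fderiv ℝ (fderiv ℝ (τ y)) x u u‖ ≤ β * ‖u‖ ^ 2) ∧
      (∀ᶠ z in 𝓝 x, f z = ∑ y ∈ C x, ‖τ y z - a‖ ^ 2) ∧
      ∀ᶠ z in 𝓝 x, (C z).card = (C x).card := by
    intro x hx
    obtain ⟨τ, t1, t2⟩ := hloc x hx
    have t3 : ∀ᶠ z in 𝓝 x, InjOn (fun y => τ y z) (C x) ∧ C z = (C x).image fun y => τ y z := by
      filter_upwards [t2] with z hz
      refine ⟨hz.1, Finset.ext fun w => ?_⟩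
      rw [hz.2 w, Finset.mem_image]
    refine ⟨τ, t1, ?_, ?_⟩
    · filter_upwards [t3] with z hz
      show ∑ y ∈ C z, ‖y - a‖ ^ 2 = _
      rw [hz.2, Finset.sum_image fun y hy y' hy' he => hz.1 hy hy' he]
    · filter_upwards [t3] with z hz
      rw [hz.2, Finset.card_image_of_injOn hz.1]
  have hBm : ∀ x, x ∈ closedBall a σ ↔ ‖x - a‖ ≤ σ := fun x => mem_closedBall_iff_norm
  have hfc : ∀ x ∈ closedBall a σ, ContinuousAt f x := fun x hx => by
    obtain ⟨τ, t1, t2, -⟩ := hform x ((hBm x).1 hx)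
    refine ContinuousAt.congr ?_ (EventuallyEq.symm t2)
    exact tendsto_finsetSum _ fun y hy =>
      (((t1 y hy).2.1.continuousAt.sub continuousAt_const).norm.pow 2)
  have haB : a ∈ closedBall a σ := mem_closedBall_self hσ.le
  obtain ⟨x, hx, hmin⟩ := (isCompact_closedBall a σ).exists_isMinOn ⟨a, haB⟩
    fun x hx => (hfc x hx).continuousWithinAt
  have hcard : (C x).card = (C a).card :=
    (convex_closedBall a σ).isPreconnected.constant (f := fun z => (C z).card) (fun z hz => by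
      obtain ⟨τ, -, -, t3⟩ := hform z ((hBm z).1 hz)
      exact (continuousAt_const.congr (EventuallyEq.symm t3)).continuousWithinAt) hx haB
  have hself : ∀ z, ‖z - a‖ ≤ σ → z ∈ C z := fun z hz => (hC z z).2 ⟨by linarith, rfl⟩
  have hbC : b ∈ C a := (hC a b).2 ⟨lt_of_le_of_lt (norm_sub_le _ _) (by linarith), hab.symm⟩
  have h2c : 1 < (C x).card := by
    rw [hcard]
    exact Finset.one_lt_card.2 ⟨a, hself a ((hBm a).1 haB), b, hbC, hne⟩
  obtain ⟨y, hy, hyx⟩ := Finset.exists_mem_ne h2c x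
  have hfa : f a ≤ σ ^ 2 := by
    have c1 : (C a).card ≤ K := hK.finset (q := Ψ a) (fun w hw => hin w ((hC a w).1 hw).1)
      fun w hw => ((hC a w).1 hw).2
    have c2 : f a ≤ (C a).card • s ^ 2 := Finset.sum_le_card_nsmul _ _ _ fun w hw => by
      have := hgap w ((hC a w).1 hw).2 (by linarith [((hC a w).1 hw).1])
      gcongr
    have c3 : ((C a).card : ℝ) ≤ k := by
      rw [hk]; exact_mod_cast Nat.le_succ_of_le c1
    rw [nsmul_eq_mul] at c2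
    have c4 : k * s ^ 2 ≤ σ ^ 2 := by
      rw [hσd, mul_pow]; gcongr; nlinarith
    nlinarith [sq_nonneg s]
  have hyB : y ∈ closedBall a σ := by
    rw [hBm]
    have c1 : ‖y - a‖ ^ 2 ≤ f x :=
      Finset.single_le_sum (f := fun w => ‖w - a‖ ^ 2) (fun w _ => sq_nonneg _) hy
    have c2 : f x ≤ f a := hmin haB
    exact (pow_le_pow_iff_left₀ (norm_nonneg _) hσ.le two_ne_zero).1 (by linarith)
  have hfy : f y = f x := by
    have : C y = C x := Finset.ext fun w => by rw [hC, hC, ((hC x y).1 hy).2]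
    show ∑ w ∈ C y, _ = ∑ w ∈ C x, _
    rw [this]
  set v := y - x with hv
  have hv0 : 0 < ‖v‖ := norm_pos_iff.2 (sub_ne_zero.2 hyx)
  have hseg : ∀ t ∈ Icc (0 : ℝ) 1, x + t • v ∈ closedBall a σ := fun t ht =>
    (convex_closedBall a σ).add_smul_sub_mem hx hyB ht
  have hl : Continuous fun t : ℝ => x + t • v := by fun_prop
  have hconv : StrictConvexOn ℝ (Icc (0 : ℝ) 1) fun t => f (x + t • v) := by
    refine strictConvexOn_of_deriv2_pos' (convex_Icc 0 1) (fun t ht =>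
      (ContinuousAt.comp (f := fun t : ℝ => x + t • v) (hfc _ (hseg t ht))
        hl.continuousAt).continuousWithinAt) fun t ht => ?_
    have hz := (hBm _).1 (hseg t ht)
    obtain ⟨τ, t1, t2, -⟩ := hform _ hz
    have d1 := (D2.sum fun w (hw : w ∈ C (x + t • v)) =>
      D2_sq (a := a) (t1 w hw).2.1).congr (ψ := fun t => f (x + t • v))
      (hl.continuousAt.eventually t2)
    rw [d1.deriv2]
    refine Finset.sum_pos (fun w hw => ?_) ⟨_, hself _ hz⟩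
    obtain ⟨u1, -, u2⟩ := t1 w hw
    obtain ⟨u3, u4⟩ := u2 v
    have u5 := ((hC _ w).1 hw).1
    have u6 := abs_real_inner_le_norm (τ w (x + t • v) - a)
      (fderiv ℝ (fderiv ℝ (τ w)) (x + t • v) v v)
    rw [u1] at u6 ⊢
    have u7 : ‖w - a‖ * ‖fderiv ℝ (fderiv ℝ (τ w)) (x + t • v) v v‖
        ≤ (ρ * P) * (β * ‖v‖ ^ 2) := by gcongr; linarith
    have u8 : ‖v‖ ^ 2 ≤ 4 * ‖fderiv ℝ (τ w) (x + t • v) v‖ ^ 2 := by nlinarith
    have u9 : (ρ * P) * (β * ‖v‖ ^ 2) < ‖v‖ ^ 2 / 8 := by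
      have : 0 < ‖v‖ ^ 2 := by positivity
      nlinarith
    have u10 := neg_abs_le ⟪w - a, fderiv ℝ (fderiv ℝ (τ w)) (x + t • v) v v⟫
    have : 0 < ‖v‖ ^ 2 := by positivity
    linarith
  have c1 := hconv.2 (left_mem_Icc.2 zero_le_one) (right_mem_Icc.2 zero_le_one) zero_ne_one
    (show (0 : ℝ) < 1 / 2 by norm_num) (show (0 : ℝ) < 1 / 2 by norm_num) (by norm_num)
  have c2 : f x ≤ f (x + ((1 / 2 : ℝ) • (0 : ℝ) + (1 / 2 : ℝ) • (1 : ℝ)) • v) :=
    hmin (hseg _ (by norm_num))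
  have c3 : x + (1 : ℝ) • v = y := by rw [one_smul, hv]; abel
  simp only [zero_smul, add_zero, c3, hfy, smul_eq_mul] at c1 c2
  linarith

end Crest.Agent.N207.F

end
end

-- ▼ part N207/F/InjC

/-!
# Row 207, block F3 (helper26): an almost Euclidean immersion of a ball is a partial covering

`Imm g Γ Ψ R β`: `Ψ` is a local isometry `(ball 0 R, g) → M`, `1/2 ≤ g ≤ 2`, `|Γ| ≤ β`.
`Imm.cov`, `Imm.deck`, and `Imm.injOn`: injectivity on a definite ball from a volume lower bound.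
-/

set_option autoImplicit false
set_option linter.unusedSectionVars false

open Bundle Set Filter Topology MeasureTheory Metric
open scoped ContDiff Manifold ENNReal NNReal
open Crest.Agent.R244.CF (IsLC LocIsoAt)
open Crest.Agent.R226 Crest.Agent.R226.ChartMet842 Crest.Agent.R226.GeoBasic616
open Crest.GeometryTopology.MTW
open Crest.Agent.R249.B2Iso_474

noncomputable section

namespace Crest.Agent.N207.F

variable {n : ℕ}

local notation "𝔼" => EuclideanSpace ℝ (Fin n)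

theorem enorm_le_two {A B : Type*} [SeminormedAddCommGroup A] [SeminormedAddCommGroup B]
    {a : A} {b : B} (h : ‖a‖ ≤ 2 * ‖b‖) : ‖a‖ₑ ≤ ((2 : ℝ≥0) : ℝ≥0∞) * ‖b‖ₑ := by
  rw [← ofReal_norm, ← ofReal_norm]
  refine (ENNReal.ofReal_le_ofReal h).trans (le_of_eq ?_)
  rw [ENNReal.ofReal_mul zero_le_two]
  simp

theorem exists_cle {B : 𝔼 →L[ℝ] 𝔼} (h : Function.Surjective B) :
    ∃ A : 𝔼 ≃L[ℝ] 𝔼, (A : 𝔼 →L[ℝ] 𝔼) = B := by
  have hi : Function.Injective (B : 𝔼 →ₗ[ℝ] 𝔼) :=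
    (LinearMap.injective_iff_surjective (f := (B : 𝔼 →ₗ[ℝ] 𝔼))).2 h
  exact ⟨(LinearEquiv.ofBijective (B : 𝔼 →ₗ[ℝ] 𝔼) ⟨hi, h⟩).toContinuousLinearEquiv, by
    ext v; rfl⟩

/-- smooth local inverse -/
theorem exists_inv {φ : 𝔼 → 𝔼} {x : 𝔼} (hs : ∀ᶠ y in 𝓝 x, ContDiffAt ℝ ∞ φ y)
    (hsurj : ∀ᶠ y in 𝓝 x, Function.Surjective (fderiv ℝ φ y)) :
    ∃ ψ : 𝔼 → 𝔼, ψ (φ x) = x ∧ (∀ᶠ w in 𝓝 (φ x), ContDiffAt ℝ ∞ ψ w) ∧
      (∀ᶠ w in 𝓝 (φ x), φ (ψ w) = w) ∧ ∀ᶠ z in 𝓝 x, ψ (φ z) = z := by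
  obtain ⟨A, hA⟩ := exists_cle hsurj.self_of_nhds
  have h1 := hs.self_of_nhds
  have hd : HasFDerivAt φ (A : 𝔼 →L[ℝ] 𝔼) x := by
    rw [hA]; exact (h1.differentiableAt (by simp)).hasFDerivAt
  set e := h1.toOpenPartialHomeomorph φ hd (by simp) with he
  have hx : x ∈ e.source := h1.mem_toOpenPartialHomeomorph_source hd (by simp)
  have hco : (e : 𝔼 → 𝔼) = φ := rfl
  have ht : e.target ∈ 𝓝 (φ x) := e.open_target.mem_nhds (e.map_source hx)
  have hl : e.symm (φ x) = x := e.left_inv hx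
  have hc : Tendsto e.symm (𝓝 (φ x)) (𝓝 x) := e.tendsto_symm hx
  refine ⟨e.symm, hl, ?_, ?_, ?_⟩
  · filter_upwards [ht, hc.eventually hs, hc.eventually hsurj] with w h2 h3 h4
    obtain ⟨B, hB⟩ := exists_cle h4
    refine e.contDiffAt_symm h2 (f₀' := B) ?_ h3
    rw [hB]; exact (h3.differentiableAt (by simp)).hasFDerivAt
  · filter_upwards [ht] with w h2 using e.right_inv h2
  · filter_upwards [e.open_source.mem_nhds hx] with z h2 using e.left_inv h2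

theorem locIso_of_comp {U U' : Set 𝔼} {g g' : 𝔼 → 𝔼 →L[ℝ] 𝔼 →L[ℝ] ℝ}
    {Γ : 𝔼 → 𝔼 →L[ℝ] 𝔼 →L[ℝ] 𝔼} (hLC : IsLC U g Γ) {φ τ : 𝔼 → 𝔼} {x : 𝔼}
    (h1 : LocIsoAt U g U' g' φ x) (h2 : LocIsoAt U g U' g' φ (τ x))
    (hτ : ∀ᶠ z in 𝓝 x, ContDiffAt ℝ ∞ τ z) (he : ∀ᶠ z in 𝓝 x, φ (τ z) = φ z) :
    LocIsoAt U g U g τ x := by
  have hc := hτ.self_of_nhds.continuousAt
  have hiso : ∀ᶠ z in 𝓝 x, ∀ u v, g z u v = g (τ z) (fderiv ℝ τ z u) (fderiv ℝ τ z v) := by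
    filter_upwards [h1.iso, hc.eventually h2.iso, hc.eventually h2.smooth', hτ,
      he.eventually_nhds] with z a1 a2 a3 a4 a5 u v
    have a6 : fderiv ℝ φ z = (fderiv ℝ φ (τ z)).comp (fderiv ℝ τ z) := by
      rw [← fderiv_comp z (a3.differentiableAt (by simp)) (a4.differentiableAt (by simp))]
      exact (EventuallyEq.fderiv_eq (f₁ := φ ∘ τ) a5).symm
    rw [a1, a2, a5.self_of_nhds, a6]
    rfl
  refine ⟨h1.mem, h2.mem, hτ, ?_, hiso⟩
  filter_upwards [hiso, hLC.isOpen.mem_nhds h1.mem] with z a1 a2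
  refine (LinearMap.injective_iff_surjective (f := (fderiv ℝ τ z : 𝔼 →ₗ[ℝ] 𝔼))).1 ?_
  rw [← LinearMap.ker_eq_bot, LinearMap.ker_eq_bot']
  intro u hu
  by_contra hne
  have a3 := hLC.g_pos z a2 u hne
  have a4 : fderiv ℝ τ z u = 0 := hu
  rw [a1 u u, a4, map_zero] at a3
  exact lt_irrefl _ a3

variable {M : Type*} [MetricSpace M] [ChartedSpace (EuclideanSpace ℝ (Fin n)) M]
  [IsManifold (𝓡 n) ∞ M]
  [RiemannianBundle (fun p : M => TangentSpace (𝓡 n) p)]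
  [IsContMDiffRiemannianBundle (𝓡 n) ∞ (EuclideanSpace ℝ (Fin n))
    (fun p : M => TangentSpace (𝓡 n) p)]
  [IsRiemannianManifold (𝓡 n) M]

/-- an almost Euclidean isometric immersion of a ball (`C⁰` part) -/
structure Imm0 (g : 𝔼 → 𝔼 →L[ℝ] 𝔼 →L[ℝ] ℝ) (Γ : 𝔼 → 𝔼 →L[ℝ] 𝔼 →L[ℝ] 𝔼) (Ψ : 𝔼 → M)
    (R : ℝ) : Prop where
  lc : IsLC (ball 0 R) g Γ
  iso : ∀ x ∈ ball (0 : 𝔼) R, IsoM g Ψ x
  lo : ∀ x ∈ ball (0 : 𝔼) R, ∀ u, ‖u‖ ^ 2 ≤ 2 * g x u u
  hi : ∀ x ∈ ball (0 : 𝔼) R, ∀ u, g x u u ≤ 2 * ‖u‖ ^ 2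

theorem geo_of (G : GeoData n M) : Geo M := fun p q => by
  obtain ⟨v, h1, h2⟩ := G.surj p q
  refine ⟨fun t => G.ex p (t • v), by beta_reduce; rw [zero_smul, G.ex_zero],
    by beta_reduce; rw [one_smul, h1], fun s t => ?_⟩
  rw [← h2]
  exact G.dist_le p v s t

variable {g : EE n → EE n →L[ℝ] EE n →L[ℝ] ℝ} {Γ : EE n → EE n →L[ℝ] EE n →L[ℝ] EE n}
  {Ψ : EE n → M} {R : ℝ}

theorem Imm0.sm (h : Imm0 g Γ Ψ R) {x : 𝔼} (hx : x ∈ ball (0 : 𝔼) R) :
    ContMDiffAt 𝓘(ℝ, 𝔼) (𝓡 n) ∞ Ψ x := (h.iso x hx).1.self_of_nhds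

theorem Imm0.lip (h : Imm0 g Γ Ψ R) {x y : 𝔼} (hx : x ∈ ball (0 : 𝔼) R)
    (hy : y ∈ ball (0 : 𝔼) R) : dist (Ψ x) (Ψ y) ≤ 2 * ‖x - y‖ := by
  have h1 := R247.Ms322.edist_le_of_convex (I := 𝓡 n) (f := Ψ) (convex_ball (0 : 𝔼) R)
    isOpen_ball (fun z hz => ((h.sm hz).of_le (by simp)).contMDiffWithinAt) (C := 2)
    (fun z hz v => by
      have a1 := h.hi z hz v
      rw [(h.iso z hz).2.self_of_nhds, real_inner_self_eq_norm_sq] at a1
      have a2 : ‖(mfderiv 𝓘(ℝ, 𝔼) (𝓡 n) Ψ z v : TangentSpace (𝓡 n) (Ψ z))‖ ≤ 2 * ‖v‖ :=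
        (pow_le_pow_iff_left₀ (norm_nonneg _) (by positivity) two_ne_zero).1
          (by nlinarith [sq_nonneg ‖v‖])
      exact enorm_le_two a2) hx hy
  rw [edist_dist, edist_dist, dist_eq_norm] at h1
  have h2 : ((2 : ℝ≥0) : ℝ≥0∞) * ENNReal.ofReal ‖x - y‖ = ENNReal.ofReal (2 * ‖x - y‖) := by
    rw [ENNReal.ofReal_mul zero_le_two]; simp
  rw [h2] at h1
  exact (ENNReal.ofReal_le_ofReal_iff (by positivity)).1 h1

/-- the local section -/
theorem Imm0.sec (h : Imm0 g Γ Ψ R) {x : 𝔼} (hx : x ∈ ball (0 : 𝔼) R) {q : M} (hq : Ψ x = q) :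
    LocIsoAt (ball 0 R) g (chartAt 𝔼 q).target (gm (n := n) q) (FC Ψ q) x ∧
    (∀ᶠ z in 𝓝 x, Ψ z ∈ (chartAt 𝔼 q).source) ∧
    ∃ ψ : 𝔼 → 𝔼, ψ (FC (n := n) Ψ q x) = x ∧ (∀ᶠ w in 𝓝 (FC (n := n) Ψ q x), ContDiffAt ℝ ∞ ψ w) ∧
      (∀ᶠ w in 𝓝 (FC (n := n) Ψ q x), FC Ψ q (ψ w) = w) ∧ ∀ᶠ z in 𝓝 x, ψ (FC Ψ q z) = z := by
  have hs : Ψ x ∈ (chartAt 𝔼 q).source := by rw [hq]; exact mem_chart_source _ _
  have hL := (h.iso x hx).locIso h.lc hx hs
  exact ⟨hL, (h.sm hx).continuousAt.eventually ((chartAt 𝔼 q).open_source.mem_nhds hs),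
    exists_inv hL.smooth' hL.surj⟩

theorem Imm0.locinj (h : Imm0 g Γ Ψ R) {x : 𝔼} (hx : x ∈ ball (0 : 𝔼) R) :
    ∃ ε > 0, InjOn Ψ (ball x ε) := by
  obtain ⟨-, -, ψ, -, -, -, h4⟩ := h.sec hx rfl
  obtain ⟨ε, hε, h5⟩ := Metric.eventually_nhds_iff_ball.1 h4
  refine ⟨ε, hε, fun a ha b hb hab => ?_⟩
  rw [← h5 a ha, ← h5 b hb]
  unfold FC
  rw [hab]

theorem Imm0.colip (G : GeoData n M) (h : Imm0 g Γ Ψ R) (x : 𝔼) (q : M)
    (hR : ‖x‖ + 2 * dist (Ψ x) q < R) : ∃ x', Ψ x' = q ∧ ‖x' - x‖ ≤ 2 * dist (Ψ x) q := by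
  obtain ⟨v, hv1, hv2⟩ := G.surj (Ψ x) q
  set d := dist (Ψ x) q with hd
  have hd0 : 0 ≤ d := dist_nonneg
  rcases hd0.eq_or_lt with hz | hpos
  · exact ⟨x, dist_eq_zero.1 hz.symm, by rw [sub_self, norm_zero]; positivity⟩
  set γ : ℝ → M := fun t => G.ex (Ψ x) (t • v) with hγ
  have hγs : ∀ t, ContMDiffAt 𝓘(ℝ, ℝ) (𝓡 n) ∞ γ t := contMDiff_ray G (Ψ x) v
  have hγc : Continuous γ := (contMDiff_ray G (Ψ x) v).continuous
  have hin : ∀ y : 𝔼, ‖y - x‖ ≤ 2 * d → y ∈ ball (0 : 𝔼) R := fun y hy => by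
    rw [mem_ball_zero_iff]
    have e : y = (y - x) + x := by abel
    rw [e]
    exact lt_of_le_of_lt (norm_add_le _ _) (by linarith)
  set S : Set ℝ := {s | ∃ x', Ψ x' = γ s ∧ ‖x' - x‖ ≤ 2 * d * s} with hS
  have hcl : IsClosed (S ∩ Icc 0 1) := by
    set K : Set (ℝ × 𝔼) := (Icc 0 1 ×ˢ closedBall x (2 * d)) ∩
      (fun p : ℝ × 𝔼 => (dist (Ψ p.2) (γ p.1), ‖p.2 - x‖ - 2 * d * p.1)) ⁻¹' ({0} ×ˢ Iic 0) with hK
    have hc : IsCompact (Icc (0 : ℝ) 1 ×ˢ closedBall x (2 * d)) :=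
      isCompact_Icc.prod (isCompact_closedBall _ _)
    have hΨ : ContinuousOn (fun p : ℝ × 𝔼 => Ψ p.2) (Icc (0 : ℝ) 1 ×ˢ closedBall x (2 * d)) :=
      fun p hp => (ContinuousAt.comp (f := fun p : ℝ × 𝔼 => p.2)
        (h.sm (hin _ (mem_closedBall_iff_norm.1 hp.2))).continuousAt
        continuousAt_snd).continuousWithinAt
    have hKc : IsCompact K := hc.of_isClosed_subset
      (ContinuousOn.preimage_isClosed_of_isClosed
        ((continuous_dist.comp_continuousOn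
          (hΨ.prodMk (hγc.comp continuous_fst).continuousOn)).prodMk (by fun_prop))
        hc.isClosed (isClosed_singleton.prod isClosed_Iic)) inter_subset_left
    have he : S ∩ Icc 0 1 = Prod.fst '' K := by
      ext s
      constructor
      · rintro ⟨⟨x', a1, a2⟩, a3⟩
        refine ⟨(s, x'), ⟨⟨a3, mem_closedBall_iff_norm.2 (a2.trans ?_)⟩, ?_, ?_⟩, rfl⟩
        · nlinarith [a3.2]
        · exact dist_eq_zero.2 a1
        · exact sub_nonpos.2 a2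
      · rintro ⟨⟨s, x'⟩, ⟨⟨a1, -⟩, a2, a3⟩, rfl⟩
        exact ⟨⟨x', dist_eq_zero.1 a2, sub_nonpos.1 a3⟩, a1⟩
    rw [he]
    exact (hKc.image continuous_fst).isClosed
  have h0 : (0 : ℝ) ∈ S := ⟨x, by simp only [hγ]; rw [zero_smul, G.ex_zero], by simp⟩
  have hsub : Icc (0 : ℝ) 1 ⊆ S := by
    refine hcl.Icc_subset_of_forall_mem_nhdsWithin h0 ?_
    rintro s ⟨⟨y, a1, a2⟩, a3⟩
    have hy := hin y (a2.trans (by nlinarith [a3.2]))
    obtain ⟨hL, b0, ψ, b1, b2, b3, -⟩ := h.sec hy a1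
    have hsrc : γ s ∈ (chartAt 𝔼 (γ s)).source := mem_chart_source _ _
    have hw : FC (n := n) Ψ (γ s) y = chartAt 𝔼 (γ s) (γ s) := by unfold FC; rw [a1]
    have c1 := hasDerivAt_chart (n := n) (γ s) ((hγs s).mdifferentiableAt (by simp)) hsrc
    rw [hw] at b1 b2 b3
    have c2 : DifferentiableAt ℝ (fun t => ψ (chartAt 𝔼 (γ s) (γ t))) s :=
      DifferentiableAt.comp (g := ψ) s (b2.self_of_nhds.differentiableAt (by simp))
        c1.differentiableAt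
    set c : ℝ → 𝔼 := fun t => ψ (chartAt 𝔼 (γ s) (γ t)) with hc
    have c3 : c s = y := b1
    have c4 : ∀ᶠ t in 𝓝 s, FC (n := n) Ψ (γ s) (c t) = chartAt 𝔼 (γ s) (γ t) :=
      c1.continuousAt.eventually b3
    have c5 : fderiv ℝ (FC (n := n) Ψ (γ s)) y (deriv c s) = dC (γ s) (γ s) (curveVel n γ s) := by
      have e1 : HasFDerivAt (FC (n := n) Ψ (γ s)) (fderiv ℝ (FC (n := n) Ψ (γ s)) y) (c s) := by
        rw [c3]; exact hL.hasFDerivAt
      exact ((e1.comp_hasDerivAt s c2.hasDerivAt).congr_of_eventuallyEq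
        (EventuallyEq.symm c4)).unique c1
    have c6 : g y (deriv c s) (deriv c s) = d ^ 2 := by
      rw [hL.iso.self_of_nhds, c5, hw, ← norm_sq_curveVel (γ s) hsrc, G.norm_vel, hv2]
    have c7 : ‖deriv c s‖ < 2 * d := by
      have := h.lo y hy (deriv c s)
      rw [c6] at this
      exact lt_of_pow_lt_pow_left₀ 2 (by positivity) (by nlinarith)
    have c8 := (c2.hasDerivAt.hasDerivWithinAt (s := Ioi s)).limsup_norm_slope_le c7
    have c9 : Tendsto c (𝓝 s) (𝓝 y) := by rw [← c3]; exact c2.continuousAt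
    have c10 : ∀ᶠ t in 𝓝 s, γ t ∈ (chartAt 𝔼 (γ s)).source :=
      hγc.continuousAt.eventually ((chartAt 𝔼 (γ s)).open_source.mem_nhds hsrc)
    filter_upwards [c8, self_mem_nhdsWithin, mem_nhdsWithin_of_mem_nhds c4,
      mem_nhdsWithin_of_mem_nhds c10, mem_nhdsWithin_of_mem_nhds (c9.eventually b0)]
      with t e1 e2 e3 e4 e5
    have e6 : 0 < t - s := sub_pos.2 e2
    refine ⟨c t, (chartAt 𝔼 (γ s)).injOn e5 e4 e3, ?_⟩
    rw [Real.norm_of_nonneg e6.le, inv_mul_lt_iff₀ e6, c3] at e1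
    have e : c t - x = (c t - y) + (y - x) := by abel
    rw [e]
    exact (norm_add_le _ _).trans (by linarith)
  obtain ⟨x', a1, a2⟩ := hsub ⟨zero_le_one, le_rfl⟩
  refine ⟨x', ?_, by linarith⟩
  rw [a1]
  simp only [hγ]
  rw [one_smul, hv1]

theorem Imm0.cov (G : GeoData n M) (h : Imm0 g Γ Ψ R) : Cov Ψ R :=
  ⟨fun _ hx _ hy => h.lip hx hy, h.colip G, fun _ hx => h.locinj hx⟩

theorem Imm0.deck (h : Imm0 g Γ Ψ R) {β : ℝ} (hβ : 0 ≤ β)
    (hΓ : ∀ x ∈ ball (0 : 𝔼) R, ∀ u, ‖Γ x u u‖ ≤ β * ‖u‖ ^ 2) : Deck Ψ R (6 * β) := by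
  intro x hx y hy hxy
  obtain ⟨hLx, a0, -⟩ := h.sec hx hxy
  obtain ⟨hLy, b0, ψ, b1, b2, b3, -⟩ := h.sec hy rfl
  have hw : FC (n := n) Ψ (Ψ y) y = FC Ψ (Ψ y) x := by unfold FC; rw [hxy]
  rw [hw] at b1 b2 b3
  set τ : 𝔼 → 𝔼 := fun z => ψ (FC (n := n) Ψ (Ψ y) z) with hτ
  have t1 : τ x = y := b1
  have hc := hLx.smooth.continuousAt
  have t2 : ∀ᶠ z in 𝓝 x, ContDiffAt ℝ ∞ τ z := by
    filter_upwards [hc.eventually b2, hLx.smooth'] with z e1 e2 using ContDiffAt.comp z e1 e2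
  have t3 : ∀ᶠ z in 𝓝 x, FC (n := n) Ψ (Ψ y) (τ z) = FC Ψ (Ψ y) z := hc.eventually b3
  have hL : LocIsoAt (ball 0 R) g (ball 0 R) g τ x :=
    locIso_of_comp h.lc hLx (by rw [t1]; exact hLy) t2 t3
  have t4 : Tendsto τ (𝓝 x) (𝓝 y) := by rw [← t1]; exact t2.self_of_nhds.continuousAt
  have hi := hL.iso.self_of_nhds
  rw [t1] at hi
  have up : ∀ u, ‖fderiv ℝ τ x u‖ ≤ 2 * ‖u‖ := fun u => by
    have e1 := h.lo y hy (fderiv ℝ τ x u)
    have e2 := h.hi x hx u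
    rw [hi] at e2
    exact (pow_le_pow_iff_left₀ (norm_nonneg _) (by positivity) two_ne_zero).1 (by nlinarith)
  refine ⟨τ, t1, t2.self_of_nhds.of_le R244.CF.two_le_infty, ?_, fun u => ⟨?_, ?_⟩⟩
  · filter_upwards [t3, a0, t4.eventually b0] with z e1 e2 e3
    exact (chartAt 𝔼 (Ψ y)).injOn e3 e2 e1
  · have e1 := h.hi y hy (fderiv ℝ τ x u)
    have e2 := h.lo x hx u
    rw [hi] at e2
    exact (pow_le_pow_iff_left₀ (norm_nonneg _) (by positivity) two_ne_zero).1 (by nlinarith)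
  · have e1 := hL.gamma h.lc h.lc u u
    rw [t1] at e1
    have e2 : fderiv ℝ (fderiv ℝ τ) x u u
        = fderiv ℝ τ x (Γ x u u) - Γ y (fderiv ℝ τ x u) (fderiv ℝ τ x u) := by rw [e1]; abel
    rw [e2]
    have e3 := up (Γ x u u)
    have e4 := hΓ x hx u
    have e5 := hΓ y hy (fderiv ℝ τ x u)
    have e6 : ‖fderiv ℝ τ x u‖ ^ 2 ≤ (2 * ‖u‖) ^ 2 := by gcongr; exact up u
    have e7 : β * ‖fderiv ℝ τ x u‖ ^ 2 ≤ β * (2 * ‖u‖) ^ 2 := by gcongr
    refine (norm_sub_le _ _).trans ?_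
    nlinarith

end Crest.Agent.N207.F

end
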