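import Crest.Agent.N207.F.Nc1
import Crest.Agent.Lib.ODEFlow
import Crest.Agent.N207.AI.Ev
import Crest.Agent.N207.A.Co1
import Crest.Agent.N207.F.Nc2

-- ▼ part N207/F/Nc3
section

/-!
# Row 207, block F1 (helper7): smooth solutions of linear ODEs along rays
-/

set_option autoImplicit false

open Set Metric Filter Topology
open scoped ContDiff BigOperators
open Crest.Agent.Lib.ODEFlow

noncomputable section

namespace Crest.Agent.N207.F

variable {n : ℕ}

/-- `y ↦ (t ↦ (t y, y))` -/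
def rayL (n : ℕ) : En n →L[ℝ] C(I, En n × En n) :=
  LinearMap.toContinuousLinearMap
    { toFun := fun y => ⟨fun t => ((t : ℝ) • y, y), by fun_prop⟩
      map_add' := by intro y z; ext t <;> simp
      map_smul' := by intro c y; ext t <;> simp [mul_left_comm] }


/-- **radial transport**: a smooth `w` with `w 0 = v₀` and `X w = B(x)(x) w`. -/
theorem exists_radial {V : Type} [NormedAddCommGroup V] [NormedSpace ℝ V] [CompleteSpace V]
    {ρ : Dom n} (B : En n → En n →L[ℝ] V →L[ℝ] V) (hB : ContDiffOn ℝ ∞ B ρ.U)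
    (v0 : V) : ∃ w : En n → V, ContDiffOn ℝ ∞ w ρ.U ∧ w 0 = v0 ∧
      ∀ x ∈ ρ.U, fderiv ℝ w x x = B x x (w x) := by
  set g : En n × En n → V →L[ℝ] V := fun p => B p.1 p.2 with hg
  set U : Set (En n × En n) := ρ.U ×ˢ univ with hU
  have hUo : IsOpen U := ρ.op.prod isOpen_univ
  have hgU : ContDiffOn ℝ ∞ g U :=
    (hB.comp contDiff_fst.contDiffOn fun p hp => hp.1).clm_apply contDiff_snd.contDiffOn
  have hray : ∀ y ∈ ρ.U, rayL n y ∈ mapsIn I U := fun y hy t =>
    ⟨ray_mem hy t.2, mem_univ _⟩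
  set op : En n → C(I, V) →L[ℝ] C(I, V) := fun y =>
    ContinuousLinearMap.id ℝ C(I, V) - vol ∘L applyB (nem g (rayL n y)) with hop
  have hinv : ∀ y, (op y).IsInvertible := fun y =>
    isInvertible_id_sub_vol_comp _ (norm_nonneg (nem g (rayL n y))) fun h t => by
      rw [applyB_apply]
      exact ((nem g (rayL n y)) t).le_of_opNorm_le ((nem g (rayL n y)).norm_coe_le_norm t) _
  have hops : ContDiffOn ℝ ∞ op ρ.U := by
    have h1 : ContDiffOn ℝ ∞ (fun y => nem g (rayL n y)) ρ.U :=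
      (contDiffOn_nem (n := ⊤) hUo hgU).comp (rayL n).contDiff.contDiffOn hray
    have h3 : ContDiff ℝ ∞ (fun A : C(I, V →L[ℝ] V) => (applyB A : C(I, V) →L[ℝ] C(I, V))) := by
      fun_prop
    have h2 : ContDiffOn ℝ ∞ (fun y => applyB (nem g (rayL n y))) ρ.U :=
      h3.comp_contDiffOn h1
    exact contDiffOn_const.sub (contDiffOn_const.clm_comp h2)
  set W : En n → C(I, V) := fun y => (op y).inverse (ContinuousMap.const I v0) with hW
  have hWs : ContDiffOn ℝ ∞ W ρ.U := by
    have h1 : ContDiffOn ℝ ∞ (fun y => (op y).inverse) ρ.U := fun y hy =>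
      (hinv y).contDiffAt_map_inverse.comp_contDiffWithinAt y (hops y hy)
    exact h1.clm_apply contDiffOn_const
  have hWeq : ∀ y, op y (W y) = ContinuousMap.const I v0 := fun y =>
    (hinv y).self_apply_inverse _
  have hopap : ∀ y ∈ ρ.U, ∀ (h : C(I, V)) (t : I), op y h t =
      h t - ∫ s in (0 : ℝ)..t, B ((pr s : ℝ) • y) y (h (pr s)) := by
    intro y hy h t
    have : ∀ s : I, applyB (nem g (rayL n y)) h s = B ((s : ℝ) • y) y (h s) := fun s => by
      rw [applyB_apply, nem_apply hgU.continuousOn (hray y hy)]; rfl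
    simp only [hop, sub_apply, ContinuousLinearMap.id_apply, ContinuousLinearMap.comp_apply,
      ContinuousMap.sub_apply, vol_apply, this]
  have hint : ∀ y ∈ ρ.U, ∀ t : I,
      W y t = v0 + ∫ s in (0 : ℝ)..t, B ((pr s : ℝ) • y) y (W y (pr s)) := by
    intro y hy t
    have := hopap y hy (W y) t
    rw [hWeq] at this
    simp only [ContinuousMap.const_apply] at this
    rw [this]; abel
  have hscale : ∀ y ∈ ρ.U, ∀ θ ∈ Icc (0 : ℝ) 1, W (θ • y) = scale θ (W y) := by
    intro y hy θ hθ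
    have h1 : op (θ • y) (scale θ (W y)) = ContinuousMap.const I v0 := by
      ext t
      rw [hopap _ (ray_mem hy hθ), scale_apply, hint y hy, pr_of_mem (mul_mem_I hθ t.2),
        ContinuousMap.const_apply]
      have h2 := intervalIntegral.smul_integral_comp_mul_left (a := 0) (b := (t : ℝ))
        (fun s : ℝ => B ((pr s : ℝ) • y) y (W y (pr s))) θ
      rw [mul_zero] at h2
      rw [← h2, ← intervalIntegral.integral_smul]
      have h3 : ∫ s in (0 : ℝ)..t, θ • B ((pr (θ * s) : ℝ) • y) y (W y (pr (θ * s))) =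
          ∫ s in (0 : ℝ)..t, B ((pr s : ℝ) • θ • y) (θ • y) (scale θ (W y) (pr s)) := by
        refine intervalIntegral.integral_congr fun s hs => ?_
        rw [uIcc_of_le t.2.1] at hs
        have hs' : s ∈ Icc (0 : ℝ) 1 := ⟨hs.1, hs.2.trans t.2.2⟩
        simp only [scale_apply, pr_of_mem hs', pr_of_mem (mul_mem_I hθ hs'), map_smul,
          smul_apply, smul_smul, mul_comm s θ]
      rw [h3]; abel
    have := (hinv (θ • y)).inverse_apply_self (scale θ (W y))
    rw [h1] at this
    exact this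
  set w : En n → V := fun y => W y ⟨1, zero_le_one, le_rfl⟩ with hw
  have hws : ContDiffOn ℝ ∞ w ρ.U := by
    have : ContDiff ℝ ∞ (fun f : C(I, V) =>
        (ContinuousMap.evalCLM ℝ (⟨1, zero_le_one, le_rfl⟩ : I) : C(I, V) →L[ℝ] V) f) := by
      fun_prop
    exact this.comp_contDiffOn hWs
  have hwr : ∀ y ∈ ρ.U, ∀ θ ∈ Icc (0 : ℝ) 1,
      w (θ • y) = v0 + ∫ s in (0 : ℝ)..θ, B ((pr s : ℝ) • y) y (W y (pr s)) := by
    intro y hy θ hθ
    have e : w (θ • y) = W y (pr θ) := by
      show W (θ • y) ⟨1, zero_le_one, le_rfl⟩ = _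
      rw [hscale y hy θ hθ, scale_apply, mul_one]
    rw [e, hint y hy (pr θ), pr_of_mem hθ]
  refine ⟨w, hws, ?_, fun x hx => ?_⟩
  · simpa using hwr 0 ρ.zero 0 ⟨le_rfl, zero_le_one⟩
  · have hFc : Continuous fun s : ℝ => B ((pr s : ℝ) • x) x (W x (pr s)) := by
      have := continuous_comp_pr (applyB (nem g (rayL n x)) (W x))
      refine this.congr fun s => ?_
      rw [applyB_apply, nem_apply hgU.continuousOn (hray x hx)]; rfl
    have h1 : HasDerivAt (fun θ : ℝ => v0 + ∫ s in (0 : ℝ)..θ, B ((pr s : ℝ) • x) x (W x (pr s)))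
        (B ((pr 1 : ℝ) • x) x (W x (pr 1))) 1 :=
      (intervalIntegral.integral_hasDerivAt_right (hFc.intervalIntegrable _ _)
        (hFc.stronglyMeasurableAtFilter _ _) hFc.continuousAt).const_add v0
    have hd : DifferentiableAt ℝ w x :=
      (hws.contDiffAt (ρ.op.mem_nhds hx)).differentiableAt (by simp)
    have h2 : HasDerivAt (fun θ : ℝ => w (θ • x)) (fderiv ℝ w x x) 1 := by
      have h3 : HasDerivAt (fun s : ℝ => s • x) x 1 := by
        simpa using (hasDerivAt_id (1 : ℝ)).smul_const x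
      have h4 : HasFDerivAt w (fderiv ℝ w x) ((1 : ℝ) • x) := by simpa using hd.hasFDerivAt
      exact h4.comp_hasDerivAt (1 : ℝ) h3
    have h5 : HasDerivWithinAt (fun θ : ℝ => w (θ • x)) (B ((pr 1 : ℝ) • x) x (W x (pr 1)))
        (Icc 0 1) 1 :=
      h1.hasDerivWithinAt.congr (fun θ hθ => hwr x hx θ hθ) (hwr x hx 1 ⟨zero_le_one, le_rfl⟩)
    have h6 := (uniqueDiffOn_Icc zero_lt_one 1 ⟨zero_le_one, le_rfl⟩).eq_deriv _
      h2.hasDerivWithinAt h5
    rw [h6, pr_of_mem ⟨zero_le_one, le_rfl⟩, one_smul]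
    congr 2
    exact Subtype.ext (pr_of_mem ⟨zero_le_one, le_rfl⟩)

end Crest.Agent.N207.F
end
end

-- ▼ part N207/F/Nc4
section

/-!
# Row 207, block F1 (helper7): matrix calculus and the radial parallel frame
-/

set_option autoImplicit false

open Set Metric Filter Topology Matrix
open scoped ContDiff BigOperators
open Crest.GeometryTopology.CoordMetric Crest.GeometryTopology.ChartCurvature
  Crest.GeometryTopology.MetricFamily
open Crest.Agent.R202.Tens Crest.Agent.R247.Bo84

noncomputable section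

namespace Crest.Agent.N207.F

variable {n : ℕ}

/-- entrywise smooth matrix field -/
def SmM (ρ : Dom n) (A : MetricField n) : Prop := ∀ a b, Sm ρ fun y => A y a b

/-- entrywise partial derivative -/
def pdM (i : Fin n) (A : MetricField n) : MetricField n := fun x =>
  Matrix.of fun a b => pderiv i (fun y => A y a b) x

/-- entrywise Euler derivative -/
def eulM (A : MetricField n) : MetricField n := fun x => ∑ j, x j • pdM j A x

theorem pdM_apply (i : Fin n) (A : MetricField n) (x : En n) (a b : Fin n) :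
    pdM i A x a b = pderiv i (fun y => A y a b) x := rfl

theorem eulM_apply (A : MetricField n) (x : En n) (a b : Fin n) :
    eulM A x a b = eul (fun y => A y a b) x := by
  simp [eulM, eul, Matrix.sum_apply, pdM_apply]

variable {ρ : Dom n} {A B : MetricField n} {x : En n}

theorem SmM.mul (hA : SmM ρ A) (hB : SmM ρ B) : SmM ρ fun y => A y * B y := fun a b => by
  simp only [Matrix.mul_apply]
  exact ContDiffOn.sum fun k _ => (hA a k).mul (hB k b)

theorem SmM.add (hA : SmM ρ A) (hB : SmM ρ B) : SmM ρ fun y => A y + B y := fun a b =>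
  (hA a b).add (hB a b)

theorem SmM.tr (hA : SmM ρ A) : SmM ρ fun y => (A y)ᵀ := fun a b => hA b a

theorem SmM.pdM (hA : SmM ρ A) (i : Fin n) : SmM ρ (pdM i A) := fun a b => (hA a b).pd i

theorem pdM_mul (hA : SmM ρ A) (hB : SmM ρ B) (hx : x ∈ ρ.U) (i : Fin n) :
    pdM i (fun y => A y * B y) x = pdM i A x * B x + A x * pdM i B x := by
  ext a b
  simp only [pdM_apply, Matrix.mul_apply, Matrix.add_apply]
  rw [pd_sum (f := fun k y => A y a k * B y k b) _
    (fun k _ => ((hA a k).da hx).mul ((hB k b).da hx)), ← Finset.sum_add_distrib]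
  exact Finset.sum_congr rfl fun k _ => pd_mul ((hA a k).da hx) ((hB k b).da hx) i

theorem pdM_add (hA : SmM ρ A) (hB : SmM ρ B) (hx : x ∈ ρ.U) (i : Fin n) :
    pdM i (fun y => A y + B y) x = pdM i A x + pdM i B x := by
  ext a b
  exact pd_add ((hA a b).da hx) ((hB a b).da hx) i


theorem pdM_comm (hA : SmM ρ A) (hx : x ∈ ρ.U) (i j : Fin n) :
    pdM i (pdM j A) x = pdM j (pdM i A) x := by
  ext a b
  exact pd_comm (hA a b) hx i j

theorem pdM_congr (h : ∀ y ∈ ρ.U, A y = B y) (hx : x ∈ ρ.U)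
    (i : Fin n) : pdM i A x = pdM i B x := by
  ext a b
  exact pderiv_congr (f := fun y => A y a b) (g := fun y => B y a b)
    (fun y hy => by simp only [h y hy]) i hx

theorem pdM_const (C : Matrix (Fin n) (Fin n) ℝ) (x : En n) (i : Fin n) :
    pdM i (fun _ => C) x = 0 := by
  ext a b
  exact pd_const _ x i

theorem pdM_radial {Q : Fin n → MetricField n} (hQ : ∀ j, SmM ρ (Q j))
    (hx : x ∈ ρ.U) (i : Fin n) :
    pdM i (fun y => ∑ j, y j • Q j y) x = Q i x + ∑ j, x j • pdM i (Q j) x := by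
  ext a b
  simp only [pdM_apply, Matrix.sum_apply, Matrix.smul_apply, smul_eq_mul, Matrix.add_apply]
  rw [pd_sum (f := fun j y => y j * Q j y a b) _
    (fun j _ => ((sm_coord ρ j).da hx).mul ((hQ j a b).da hx))]
  simp only [pd_mul ((sm_coord ρ _).da hx) ((hQ _ a b).da hx), pd_coord, Finset.sum_add_distrib,
    ite_mul, one_mul, zero_mul, Finset.sum_ite_eq', Finset.mem_univ, if_true]

theorem eulM_mul (hA : SmM ρ A) (hB : SmM ρ B) (hx : x ∈ ρ.U) :
    eulM (fun y => A y * B y) x = eulM A x * B x + A x * eulM B x := by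
  simp only [eulM, pdM_mul hA hB hx, smul_add, Finset.sum_add_distrib, Finset.sum_mul,
    Finset.mul_sum, smul_mul_assoc, mul_smul_comm]

theorem eulM_tr (A : MetricField n) (x : En n) : eulM (fun y => (A y)ᵀ) x = (eulM A x)ᵀ := by
  ext a b
  simp only [eulM_apply, Matrix.transpose_apply]

/-- a function killed by the Euler field along a ray is constant on it -/
theorem ray_const {u : En n → ℝ} (hu : Sm ρ u) {y : En n} (hy : y ∈ ρ.U)
    (h : ∀ t ∈ Ioo (0 : ℝ) 1, eul u (t • y) = 0) : u y = u 0 := by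
  have hd : ∀ t ∈ Icc (0 : ℝ) 1, HasDerivAt (fun s : ℝ => u (s • y)) (fderiv ℝ u (t • y) y) t :=
    fun t ht => hasDerivAt_ray (hu.da (ray_mem hy ht))
  obtain ⟨c, hc, e⟩ := exists_hasDerivAt_eq_slope (fun s : ℝ => u (s • y))
    (fun t => fderiv ℝ u (t • y) y) zero_lt_one
    (fun t ht => (hd t ht).continuousAt.continuousWithinAt)
    (fun t ht => hd t (Ioo_subset_Icc_self ht))
  have h1 := h c hc
  rw [eul_eq, map_smul, smul_eq_mul, e] at h1
  have h2 := (mul_eq_zero.1 h1).resolve_left hc.1.ne'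
  simp only [one_smul, zero_smul, sub_zero, div_one] at h2
  linarith

/-- the connection matrices `(Γᵢ)ˡₖ = Γˡᵢₖ` -/
def Gm (G : MetricField n) (i : Fin n) : MetricField n := fun x =>
  Matrix.of fun l k => christoffel G x l i k

/-- `Γ(x) = Σ xʲ Γⱼ` -/
def GX (G : MetricField n) : MetricField n := fun x => ∑ j, x j • Gm G j x

variable {G : MetricField n}

theorem smM_metric (hG : IsRiemannianOn G ρ.U) : SmM ρ G := hG.contDiffOn

theorem smM_Gm (hG : IsRiemannianOn G ρ.U) (i : Fin n) : SmM ρ (Gm G i) := fun l k =>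
  contDiffOn_christoffel hG l i k

theorem metric_tr (hG : IsRiemannianOn G ρ.U) (hx : x ∈ ρ.U) :
    (G x)ᵀ = G x := by
  ext i j
  exact metric_symm hG hx j i

theorem pdM_metric (hG : IsRiemannianOn G ρ.U) (hx : x ∈ ρ.U) (i : Fin n) :
    pdM i G x = (Gm G i x)ᵀ * G x + G x * Gm G i x := by
  ext j k
  have hdet : IsUnit (G x).det := (det_pos hG hx).ne'.isUnit
  have h1 := sum_g_christoffel hdet k i j
  have h2 := sum_g_christoffel hdet j i k
  simp only [Matrix.add_apply, Matrix.mul_apply, Matrix.transpose_apply, Gm, Matrix.of_apply,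
    pdM_apply]
  have h3 : ∑ l, christoffel G x l i j * G x l k = ∑ l, G x k l * christoffel G x l i j :=
    Finset.sum_congr rfl fun l _ => by rw [metric_symm hG hx l k, mul_comm]
  rw [h3, h1, h2, low, low, pderiv_metric_symm hG hx i k j, pderiv_metric_symm hG hx k i j,
    pderiv_metric_symm hG hx j i k]
  ring

theorem riemann_eq (G : MetricField n) (x : En n) (j i m k : Fin n) :
    (pdM j (Gm G i) x - pdM i (Gm G j) x + (Gm G j x * Gm G i x - Gm G i x * Gm G j x)) m k =
      riemann G x m k j i := by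
  simp only [riemann, Matrix.add_apply, Matrix.sub_apply, Matrix.mul_apply, pdM_apply, Gm,
    Matrix.of_apply, Finset.sum_sub_distrib]

/-- a radially parallel frame (the columns of `E`) -/
structure RF (G : MetricField n) (ρ : Dom n) (E : MetricField n) : Prop where
  riem : IsRiemannianOn G ρ.U
  zero : G 0 = 1
  rad : ∀ x ∈ ρ.U, ∀ k, ∑ i, ∑ j, christoffel G x k i j * x i * x j = 0
  sm : SmM ρ E
  E0 : E 0 = 1
  par : ∀ x ∈ ρ.U, eulM E x = -(GX G x * E x)

theorem exists_RF (hG : IsRiemannianOn G ρ.U) (h0 : G 0 = 1)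
    (hrad : ∀ x ∈ ρ.U, ∀ k, ∑ i, ∑ j, christoffel G x k i j * x i * x j = 0) :
    ∃ E, RF G ρ E := by
  have hB : ContDiffOn ℝ ∞ (fun x => -Gam G x) ρ.U := fun x hx =>
    (contDiffAt_Gam hG hx).neg.contDiffWithinAt
  choose w hw hw0 hwd using fun a : Fin n =>
    exists_radial (fun x => -Gam G x) hB (EuclideanSpace.single a (1 : ℝ))
  have hs : ∀ k a, Sm ρ fun y => w a y k := fun k a =>
    (EuclideanSpace.proj k : En n →L[ℝ] ℝ).contDiff.comp_contDiffOn (hw a)
  refine ⟨fun x => Matrix.of fun k a => w a x k, hG, h0, hrad, hs, ?_, fun x hx => ?_⟩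
  · ext k a
    simp [hw0, Matrix.one_apply]
  · ext k a
    have hd : DifferentiableAt ℝ (w a) x :=
      ((hw a).contDiffAt (ρ.op.mem_nhds hx)).differentiableAt (by simp)
    have h1 : fderiv ℝ (fun y => w a y k) x x = fderiv ℝ (w a) x x k := by
      have := ((EuclideanSpace.proj k : En n →L[ℝ] ℝ).hasFDerivAt.comp x hd.hasFDerivAt).fderiv
      exact congrArg (fun L : En n →L[ℝ] ℝ => L x) this
    rw [eulM_apply, eul_eq]
    simp only [Matrix.of_apply]
    rw [h1, hwd a x hx]
    show -(Gam G x x (w a x) k) = _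
    simp only [Gam_apply, Matrix.neg_apply, Matrix.mul_apply, GX, Gm,
      Matrix.sum_apply, Matrix.smul_apply, Matrix.of_apply, smul_eq_mul, Finset.sum_mul]
    rw [neg_inj]
    exact Finset.sum_congr rfl fun i _ => Finset.sum_congr rfl fun j _ => by ring

end Crest.Agent.N207.F
end
end

-- ▼ part N207/F/Nc5
section

/-!
# Row 207, block F1 (helper7): Cartan's structure equations in the radial gauge
-/

set_option autoImplicit false

open Set Metric Filter Topology Matrix
open scoped ContDiff BigOperators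
open Crest.GeometryTopology.CoordMetric Crest.GeometryTopology.ChartCurvature
  Crest.GeometryTopology.MetricFamily
open Crest.Agent.R202.Tens Crest.Agent.R247.Bo84

noncomputable section

namespace Crest.Agent.N207.F

variable {n : ℕ}

/-- the coframe `θ = Eᵀ G` -/
def th (G E : MetricField n) : MetricField n := fun x => (E x)ᵀ * G x

/-- `∇ᵢ E` -/
def Qm (G E : MetricField n) (i : Fin n) : MetricField n := fun x => pdM i E x + Gm G i x * E x

/-- the connection form `ωᵢ = θ ∇ᵢ E` -/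
def om (G E : MetricField n) (i : Fin n) : MetricField n := fun x => th G E x * Qm G E i x

/-- the curvature matrix `R(∂ⱼ, ∂ᵢ)` -/
def Rm (G : MetricField n) (j i : Fin n) : MetricField n := fun x =>
  Matrix.of fun m k => riemann G x m k j i

namespace RF

variable {G E : MetricField n} {ρ : Dom n} {x : En n}

theorem sm_th (h : RF G ρ E) : SmM ρ (th G E) := h.sm.tr.mul (smM_metric h.riem)

theorem sm_Qm (h : RF G ρ E) (i : Fin n) : SmM ρ (Qm G E i) :=
  (h.sm.pdM i).add ((smM_Gm h.riem i).mul h.sm)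

theorem sm_om (h : RF G ρ E) (i : Fin n) : SmM ρ (om G E i) := h.sm_th.mul (h.sm_Qm i)

theorem eul_metric (h : RF G ρ E) (hx : x ∈ ρ.U) :
    eulM G x = (GX G x)ᵀ * G x + G x * GX G x := by
  simp only [eulM, GX, pdM_metric h.riem hx, smul_add, Finset.sum_add_distrib,
    Matrix.transpose_sum, Matrix.transpose_smul, Finset.sum_mul, Finset.mul_sum, smul_mul_assoc,
    mul_smul_comm]

theorem eul_th (h : RF G ρ E) (hx : x ∈ ρ.U) :
    eulM (th G E) x = th G E x * GX G x := by
  unfold th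
  rw [eulM_mul h.sm.tr (smM_metric h.riem) hx, eulM_tr, h.par x hx, h.eul_metric hx]
  simp only [Matrix.transpose_neg, Matrix.transpose_mul, Matrix.mul_add, Matrix.neg_mul,
    Matrix.mul_assoc]
  abel

theorem th_zero (h : RF G ρ E) : th G E 0 = 1 := by simp [th, h.E0, h.zero]

theorem th_mul (h : RF G ρ E) (hx : x ∈ ρ.U) : th G E x * E x = 1 := by
  ext a b
  have h1 := ray_const ((h.sm_th.mul h.sm) a b) hx fun t ht => by
    have hy := ray_mem hx (Ioo_subset_Icc_self ht)
    rw [← eulM_apply (fun y => th G E y * E y), eulM_mul h.sm_th h.sm hy, h.eul_th hy,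
      h.par _ hy]
    simp [Matrix.mul_assoc]
  simpa [h.th_zero, h.E0] using h1

theorem mul_th (h : RF G ρ E) (hx : x ∈ ρ.U) : E x * th G E x = 1 :=
  mul_eq_one_comm.1 (h.th_mul hx)

theorem metric_mul (h : RF G ρ E) (hx : x ∈ ρ.U) :
    G x * E x = (th G E x)ᵀ := by
  simp [th, Matrix.transpose_mul, metric_tr h.riem hx]

theorem metric_eq (h : RF G ρ E) (hx : x ∈ ρ.U) :
    G x = (th G E x)ᵀ * th G E x := by
  rw [← h.metric_mul hx, Matrix.mul_assoc, h.mul_th hx, Matrix.mul_one]

theorem inv_eq (h : RF G ρ E) (hx : x ∈ ρ.U) : (G x)⁻¹ = E x * (E x)ᵀ := by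
  refine Matrix.inv_eq_right_inv ?_
  rw [← Matrix.mul_assoc, h.metric_mul hx, ← Matrix.transpose_mul, h.mul_th hx,
    Matrix.transpose_one]

theorem GX_apply (G : MetricField n) (x : En n) (l k : Fin n) :
    GX G x l k = ∑ j, x j * christoffel G x l j k := by
  simp [GX, Gm, Matrix.sum_apply]

/-- `θ(x) x = x` -/
theorem th_rad (h : RF G ρ E) (hx : x ∈ ρ.U) (a : Fin n) :
    ∑ k, th G E x a k * x k = x a := by
  have hs : Sm ρ fun y => ∑ k, th G E y a k * x k :=
    ContDiffOn.sum fun k _ => (h.sm_th a k).mul contDiffOn_const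
  have h1 := ray_const hs hx fun t ht => by
    have hy := ray_mem hx (Ioo_subset_Icc_self ht)
    have e : eul (fun y => ∑ k, th G E y a k * x k) (t • x) =
        ∑ k, eulM (th G E) (t • x) a k * x k := by
      simp only [eulM_apply, eul_eq]
      rw [fderiv_fun_sum fun k _ => ((h.sm_th a k).da hy).mul_const _]
      simp only [_root_.sum_apply, fderiv_mul_const ((h.sm_th a _).da hy), _root_.smul_apply,
        smul_eq_mul, mul_comm]
    rw [e, h.eul_th hy]
    simp only [Matrix.mul_apply, Finset.sum_mul]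
    rw [Finset.sum_comm]
    refine Finset.sum_eq_zero fun l _ => ?_
    have h2 := h.rad _ hy l
    have h3 : t * ∑ k, GX G (t • x) l k * x k = 0 := by
      rw [← h2, Finset.sum_comm, Finset.mul_sum]
      refine Finset.sum_congr rfl fun k _ => ?_
      simp only [GX_apply, Finset.sum_mul, Finset.mul_sum, PiLp.smul_apply, smul_eq_mul]
      exact Finset.sum_congr rfl fun j _ => by ring
    have h4 := (mul_eq_zero.1 h3).resolve_left ht.1.ne'
    simp only [mul_assoc, ← Finset.mul_sum, h4, mul_zero]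
  simpa [h.th_zero, Matrix.one_apply] using h1

/-- `E(x) x = x` -/
theorem E_rad (h : RF G ρ E) (hx : x ∈ ρ.U) (k : Fin n) :
    ∑ a, E x k a * x a = x k := by
  have h1 : ∑ a, E x k a * x a = ∑ l, (E x * th G E x) k l * x l := by
    simp only [Matrix.mul_apply, Finset.sum_mul]
    rw [Finset.sum_comm]
    refine Finset.sum_congr rfl fun a _ => ?_
    rw [← h.th_rad hx a, Finset.mul_sum]
    exact Finset.sum_congr rfl fun l _ => by ring
  rw [h1, h.mul_th hx]
  simp [Matrix.one_apply]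

theorem E_om (h : RF G ρ E) (hx : x ∈ ρ.U) (i : Fin n) :
    E x * om G E i x = Qm G E i x := by
  rw [om, ← Matrix.mul_assoc, h.mul_th hx, Matrix.one_mul]

/-- `∂ᵢ E = E ωᵢ - Γᵢ E` -/
theorem pd_E (h : RF G ρ E) (hx : x ∈ ρ.U) (i : Fin n) :
    pdM i E x = E x * om G E i x - Gm G i x * E x := by
  rw [h.E_om hx, Qm]; abel

/-- `∂ᵢ θ = θ Γᵢ - ωᵢ θ` -/
theorem pd_th (h : RF G ρ E) (hx : x ∈ ρ.U) (i : Fin n) :
    pdM i (th G E) x = th G E x * Gm G i x - om G E i x * th G E x := by
  have h1 : pdM i (fun y => th G E y * E y) x = 0 := by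
    rw [pdM_congr (B := fun _ => 1) (fun y hy => h.th_mul hy) hx, pdM_const]
  rw [pdM_mul h.sm_th h.sm hx, h.pd_E hx] at h1
  have h2 := congrArg (· * th G E x) h1
  simp only [Matrix.add_mul, Matrix.mul_sub, Matrix.sub_mul, Matrix.mul_assoc, h.mul_th hx,
    Matrix.mul_one, Matrix.zero_mul] at h2
  rw [← Matrix.mul_assoc (th G E x) (E x), h.th_mul hx, Matrix.one_mul] at h2
  rw [← sub_eq_zero, ← h2]; abel

/-- **first structure equation** -/
theorem eq1 (h : RF G ρ E) (hx : x ∈ ρ.U) (a i : Fin n) :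
    eul (fun y => th G E y a i) x + th G E x a i =
      (if a = i then 1 else 0) + ∑ b, om G E i x a b * x b := by
  have h1 := pderiv_congr (f := fun y => ∑ k, th G E y a k * y k) (g := fun y => y a)
    (fun y hy => h.th_rad hy a) i hx
  rw [pd_coord, pd_sum (f := fun k y => th G E y a k * y k) _
    (fun k _ => ((h.sm_th a k).da hx).mul ((sm_coord ρ k).da hx))] at h1
  simp only [pd_mul ((h.sm_th a _).da hx) ((sm_coord ρ _).da hx), pd_coord,
    Finset.sum_add_distrib, mul_ite, mul_one, mul_zero, Finset.sum_ite_eq', Finset.mem_univ,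
    if_true, ← pdM_apply i (th G E), h.pd_th hx, Matrix.sub_apply, sub_mul,
    Finset.sum_sub_distrib] at h1
  have h2 : ∑ k, (th G E x * Gm G i x) a k * x k = eul (fun y => th G E y a i) x := by
    rw [← eulM_apply, h.eul_th hx]
    simp only [Matrix.mul_apply, Finset.sum_mul, GX_apply, Finset.mul_sum, Gm, Matrix.of_apply]
    rw [Finset.sum_comm]
    refine Finset.sum_congr rfl fun l _ => Finset.sum_congr rfl fun k _ => ?_
    rw [christoffel_symm h.riem hx l i k]; ring
  have h3 : ∑ k, (om G E i x * th G E x) a k * x k = ∑ b, om G E i x a b * x b := by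
    simp only [Matrix.mul_apply, Finset.sum_mul]
    rw [Finset.sum_comm]
    refine Finset.sum_congr rfl fun b _ => ?_
    rw [← h.th_rad hx b, Finset.mul_sum]
    exact Finset.sum_congr rfl fun l _ => by ring
  rw [h2, h3] at h1
  linarith

theorem rad_Qm (h : RF G ρ E) (hx : x ∈ ρ.U) : ∑ j, x j • Qm G E j x = 0 := by
  have h1 := h.par x hx
  simp only [eulM, GX, Finset.sum_mul, smul_mul_assoc] at h1
  simp only [Qm, smul_add, Finset.sum_add_distrib, h1, neg_add_cancel]

theorem pd_Qm (h : RF G ρ E) (hx : x ∈ ρ.U) (j i : Fin n) :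
    pdM j (Qm G E i) x - pdM i (Qm G E j) x =
      Rm G j i x * E x + Gm G i x * Qm G E j x - Gm G j x * Qm G E i x := by
  have e : Rm G j i x =
      pdM j (Gm G i) x - pdM i (Gm G j) x + (Gm G j x * Gm G i x - Gm G i x * Gm G j x) := by
    ext m k
    rw [riemann_eq]; rfl
  have e1 : ∀ j i, pdM j (Qm G E i) x =
      pdM j (pdM i E) x + (pdM j (Gm G i) x * E x + Gm G i x * pdM j E x) := by
    intro j i
    unfold Qm
    rw [pdM_add (h.sm.pdM i) ((smM_Gm h.riem i).mul h.sm) hx,
      pdM_mul (smM_Gm h.riem i) h.sm hx]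
  rw [e1, e1, e, pdM_comm h.sm hx j i]
  simp only [Qm, Matrix.add_mul, Matrix.sub_mul, Matrix.mul_add, Matrix.mul_assoc]
  abel

theorem eul_Qm (h : RF G ρ E) (hx : x ∈ ρ.U) (i : Fin n) :
    eulM (Qm G E i) x + Qm G E i x =
      (∑ j, x j • Rm G j i x) * E x - GX G x * Qm G E i x := by
  have h1 : pdM i (fun y => ∑ j, y j • Qm G E j y) x = 0 := by
    rw [pdM_congr (B := fun _ => 0) (fun y hy => h.rad_Qm hy) hx, pdM_const]
  rw [pdM_radial h.sm_Qm hx] at h1
  have h2 : ∑ j, x j • (pdM j (Qm G E i) x - pdM i (Qm G E j) x) =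
      (∑ j, x j • Rm G j i x) * E x + Gm G i x * (∑ j, x j • Qm G E j x) -
        GX G x * Qm G E i x := by
    simp only [h.pd_Qm hx, smul_sub, smul_add, Finset.sum_sub_distrib, Finset.sum_add_distrib,
      GX, Finset.sum_mul, Finset.mul_sum, smul_mul_assoc, mul_smul_comm]
  rw [h.rad_Qm hx, Matrix.mul_zero, add_zero] at h2
  simp only [smul_sub, Finset.sum_sub_distrib] at h2
  rw [← h2, eulM, eq_neg_of_add_eq_zero_left h1]
  abel

/-- **second structure equation** -/
theorem eq2 (h : RF G ρ E) (hx : x ∈ ρ.U) (i : Fin n) :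
    eulM (om G E i) x + om G E i x = th G E x * (∑ j, x j • Rm G j i x) * E x := by
  unfold om
  rw [eulM_mul h.sm_th (h.sm_Qm i) hx, h.eul_th hx, add_assoc, ← Matrix.mul_add, h.eul_Qm hx]
  simp only [Matrix.mul_sub, Matrix.mul_assoc]
  abel

theorem eq2_apply (h : RF G ρ E) (hx : x ∈ ρ.U) (i a b : Fin n) :
    eul (fun y => om G E i y a b) x + om G E i x a b =
      ∑ l, ∑ k, ∑ j, E x l a * E x k b * x j * riemannLower G x l k j i := by
  have e : ∀ l k, (G x * ∑ j, x j • Rm G j i x) l k = ∑ j, x j * riemannLower G x l k j i := by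
    intro l k
    rw [Matrix.mul_apply]
    simp only [Matrix.sum_apply, Matrix.smul_apply, Rm, Matrix.of_apply, smul_eq_mul,
      riemannLower, Finset.mul_sum]
    rw [Finset.sum_comm]
    exact Finset.sum_congr rfl fun j _ => Finset.sum_congr rfl fun m _ => by ring
  rw [← eulM_apply, ← Matrix.add_apply, h.eq2 hx, th, Matrix.mul_assoc (E x)ᵀ,
    Matrix.mul_assoc (E x)ᵀ, Matrix.mul_apply]
  refine Finset.sum_congr rfl fun l _ => ?_
  rw [Matrix.mul_apply, Finset.mul_sum]
  refine Finset.sum_congr rfl fun k _ => ?_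
  rw [e, Finset.sum_mul, Finset.mul_sum, Matrix.transpose_apply]
  exact Finset.sum_congr rfl fun j _ => by ring

end RF

end Crest.Agent.N207.F
end
end

-- ▼ part N207/F/Nc6
section

/-!
# Row 207, block F1 (helper7): frame components of tensors
-/

set_option autoImplicit false

open Set Metric Filter Topology Matrix Function
open scoped ContDiff BigOperators
open Crest.GeometryTopology.CoordMetric Crest.GeometryTopology.ChartCurvature
  Crest.GeometryTopology.MetricFamily
open Crest.Agent.R202.Tens Crest.Agent.R247.Bo84 Crest.Agent.N207.AI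

noncomputable section

namespace Crest.Agent.N207.F

variable {n k : ℕ}

/-- the frame vectors -/
def col (E : MetricField n) (x : En n) (a : Fin n) : En n := WithLp.toLp 2 fun l => E x l a

/-- frame components -/
def fc (E : MetricField n) (T : Tn n k) (I : Fin k → Fin n) (x : En n) : ℝ :=
  frA (col E x) (T x) I

namespace RF

variable {G E : MetricField n} {ρ : Dom n} {x : En n}

theorem sm_col (h : RF G ρ E) (a : Fin n) : ContDiffOn ℝ ∞ (fun y => col E y a) ρ.U :=
  fun _ hy => (contDiffAt_toLp fun l => (h.sm l a).cda hy).contDiffWithinAt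

theorem sm_fc (h : RF G ρ E) {T : Tn n k} (hT : SmT T ρ.U) (I : Fin k → Fin n) :
    Sm ρ (fc E T I) := contDiffOn_evT hT fun s => h.sm_col (I s)

theorem nsq_eq (h : RF G ρ E) (hx : x ∈ ρ.U) (T : Tn n k) :
    nsq G T x = ∑ I, fc E T I x * fc E T I x := by
  refine ipA_frame (fun i j => ?_) _ _
  rw [h.inv_eq hx, Matrix.mul_apply]
  rfl

theorem abs_fc_le (h : RF G ρ E) (hx : x ∈ ρ.U) {T : Tn n k} {B : ℝ} (hB : 0 ≤ B)
    (hT : nsq G T x ≤ B ^ 2) (I : Fin k → Fin n) : |fc E T I x| ≤ B := by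
  refine abs_le_of_sq_le_sq' ?_ hB |> abs_le.2
  rw [h.nsq_eq hx] at hT
  refine le_trans ?_ hT
  rw [sq]
  exact Finset.single_le_sum (f := fun I => fc E T I x * fc E T I x)
    (fun _ _ => mul_self_nonneg _) (Finset.mem_univ I)

theorem eb_eq (h : RF G ρ E) (hx : x ∈ ρ.U) (i : Fin n) :
    (eb i : En n) = ∑ c, th G E x c i • col E x c := by
  ext l
  have := congrFun (congrFun (h.mul_th hx) l) i
  rw [Matrix.mul_apply, Matrix.one_apply] at this
  simp only [PiLp.single_apply, ← this, WithLp.ofLp_sum, Finset.sum_apply, PiLp.smul_apply, col,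
    smul_eq_mul, mul_comm]

theorem cov_col (h : RF G ρ E) (hx : x ∈ ρ.U) (i a : Fin n) :
    fderiv ℝ (fun y => col E y a) x (eb i) + Gam G x (eb i) (col E x a) =
      ∑ b, om G E i x b a • col E x b := by
  ext l
  have hd : DifferentiableAt ℝ (fun y => col E y a) x :=
    ((h.sm_col a).contDiffAt (ρ.op.mem_nhds hx)).differentiableAt (by simp)
  have h1 : fderiv ℝ (fun y => col E y a) x (eb i) l = pdM i E x l a := by
    have := ((EuclideanSpace.proj l : En n →L[ℝ] ℝ).hasFDerivAt.comp x hd.hasFDerivAt).fderiv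
    exact (congrArg (fun L : En n →L[ℝ] ℝ => L (eb i)) this).symm
  have h2 := congrFun (congrFun (h.E_om hx i) l) a
  rw [PiLp.add_apply, h1, Gam_apply]
  simp only [WithLp.ofLp_sum, Finset.sum_apply, PiLp.smul_apply, col, smul_eq_mul,
    PiLp.single_apply, mul_ite, mul_one, mul_zero, ite_mul, zero_mul]
  rw [Finset.sum_comm]
  simp only [Finset.sum_ite_eq', Finset.mem_univ, if_true]
  rw [Matrix.mul_apply, Qm, Matrix.add_apply, Matrix.mul_apply] at h2
  simp only [Gm, Matrix.of_apply] at h2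
  rw [← h2]
  exact Finset.sum_congr rfl fun b _ => mul_comm _ _

/-- **derivative of frame components** -/
theorem pd_fc (h : RF G ρ E) (hx : x ∈ ρ.U) {T : Tn n k} (hT : SmT T ρ.U)
    (I : Fin k → Fin n) (i : Fin n) :
    pderiv i (fc E T I) x = ∑ c, th G E x c i * fc E (cov G T) (Fin.cons c I) x +
      ∑ s, ∑ b, om G E i x b (I s) * fc E T (update I s b) x := by
  have h1 := fderiv_evT_cov G (T := T) (c := fun y : En n => y)
    (v := fun y s => col E y (I s)) (p := x) (hT.dAt ρ.op hx) differentiableAt_id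
    (fun s => ((h.sm_col (I s)).contDiffAt (ρ.op.mem_nhds hx)).differentiableAt (by simp))
    (eb i)
  simp only [fderiv_fun_id, ContinuousLinearMap.id_apply, h.cov_col hx, evT_update_sum] at h1
  refine h1.trans ?_
  congr 1
  · rw [← Fin.update_cons_zero (α := fun _ => En n) 0 (fun s => col E x (I s)) (eb i),
      h.eb_eq hx i, evT_update_sum]
    refine Finset.sum_congr rfl fun c _ => ?_
    rw [Fin.update_cons_zero, fc, frA_apply]
    congr 2
    funext s
    refine Fin.cases rfl (fun _ => rfl) s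
  · refine Finset.sum_congr rfl fun s _ => Finset.sum_congr rfl fun b _ => ?_
    rw [fc, frA_apply]
    congr 2
    exact (Function.comp_update (col E x) I s b).symm

/-- the second structure equation in frame components -/
theorem eq2_fc (h : RF G ρ E) (hx : x ∈ ρ.U) (i a b : Fin n) :
    eul (fun y => om G E i y a b) x + om G E i x a b =
      ∑ d, (∑ c, fc E (rmT G) ![a, b, c, d] x * x c) * th G E x d i := by
  set M : Matrix (Fin n) (Fin n) ℝ :=
    Matrix.of fun j m => ∑ l, ∑ q, E x l a * E x q b * riemannLower G x l q j m with hM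
  have h1 : ∀ c d, fc E (rmT G) ![a, b, c, d] x = ((E x)ᵀ * M * E x) c d := by
    intro c d
    rw [fc, frA_apply, evT_four, Matrix.mul_assoc, Matrix.mul_apply]
    simp only [Matrix.mul_apply, hM, Matrix.of_apply, Matrix.transpose_apply, Finset.mul_sum,
      Finset.sum_mul]
    have e : ∀ F : Fin n → Fin n → Fin n → Fin n → ℝ,
        ∑ l, ∑ q, ∑ j, ∑ m, F l q j m = ∑ j, ∑ m, ∑ l, ∑ q, F l q j m := by
      intro F
      rw [← Fintype.sum_prod_type', ← Fintype.sum_prod_type' (f := fun j m => ∑ l, ∑ q, F l q j m)]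
      simp only [← Fintype.sum_prod_type' (f := fun j m => F _ _ j m),
        ← Fintype.sum_prod_type' (f := fun l q => F l q _ _)]
      exact Finset.sum_comm
    rw [e]
    refine Finset.sum_congr rfl fun j _ => Finset.sum_congr rfl fun m _ =>
      Finset.sum_congr rfl fun l _ => Finset.sum_congr rfl fun q _ => ?_
    simp only [col, rmT, Matrix.cons_val_zero, Matrix.cons_val_one, Matrix.cons_val]
    ring
  have h2 : ∑ d, (∑ c, ((E x)ᵀ * M * E x) c d * x c) * th G E x d i =
      ∑ c, ((E x)ᵀ * M * E x * th G E x) c i * x c := by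
    simp only [Matrix.mul_apply (M := (E x)ᵀ * M * E x), Finset.sum_mul]
    rw [Finset.sum_comm]
    exact Finset.sum_congr rfl fun c _ => Finset.sum_congr rfl fun d _ => by ring
  simp only [h1]
  rw [h2, Matrix.mul_assoc, h.mul_th hx, Matrix.mul_one, h.eq2_apply hx]
  simp only [Matrix.mul_apply, Matrix.transpose_apply, Finset.sum_mul]
  rw [Finset.sum_comm (f := fun c j => E x j c * M j i * x c)]
  have h3 : ∀ j, ∑ c, E x j c * M j i * x c = x j * M j i := by
    intro j
    rw [← h.E_rad hx j, Finset.sum_mul]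
    exact Finset.sum_congr rfl fun c _ => by ring
  rw [Finset.sum_congr rfl fun j _ => h3 j]
  simp only [hM, Matrix.of_apply, Finset.mul_sum]
  rw [Finset.sum_comm (f := fun j l => ∑ q, x j * (E x l a * E x q b * riemannLower G x l q j i))]
  refine Finset.sum_congr rfl fun l _ => ?_
  rw [Finset.sum_comm]
  exact Finset.sum_congr rfl fun j _ => Finset.sum_congr rfl fun q _ => by ring

end RF

end Crest.Agent.N207.F
end
end

-- ▼ part N207/F/Nc7
section

/-!
# Row 207, block F1 (helper7): uniform bounds for the coframe, the connection form and the metric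
-/

set_option autoImplicit false

open Set Metric Filter Topology Matrix Function
open scoped ContDiff BigOperators
open Crest.GeometryTopology.CoordMetric Crest.GeometryTopology.ChartCurvature
  Crest.GeometryTopology.MetricFamily

noncomputable section

namespace Crest.Agent.N207.F

/-- a metric in normal coordinates with scale invariant curvature bounds -/
structure Dat (n M : ℕ) (K : ℝ) where
  D : Dom n
  δ : ℝ
  G : MetricField n
  E : MetricField n
  hδ : 0 < δ
  hK : δ ≤ K
  rf : RF G D E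
  bd : ∀ j ≤ M, ∀ x ∈ D.U, nsq G (covN G (rmT G) j) x ≤ (δ / D.ρ ^ (j + 2)) ^ 2

namespace Dat

variable {n M : ℕ} {K : ℝ}

/-- normalised frame components of `∇ʲ Rm` -/
def FR (n M : ℕ) (K : ℝ) (j : ℕ) (I : Fin (4 + j) → Fin n) (d : Dat n M K) (x : En n) : ℝ :=
  d.D.ρ ^ (j + 2) / d.δ * fc d.E (covN d.G (rmT d.G) j) I x

/-- `(θ - 1) / δ` -/
def U (n M : ℕ) (K : ℝ) (a i : Fin n) (d : Dat n M K) (x : En n) : ℝ :=
  (th d.G d.E x a i - if a = i then 1 else 0) / d.δ

/-- `ρ ω / δ` -/
def W (n M : ℕ) (K : ℝ) (i a b : Fin n) (d : Dat n M K) (x : En n) : ℝ :=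
  d.D.ρ / d.δ * om d.G d.E i x a b

theorem smT (d : Dat n M K) (j : ℕ) : SmT (covN d.G (rmT d.G) j) d.D.U :=
  (SmT.rmT d.rf.riem).covN d.rf.riem j

theorem sm_FR (j : ℕ) (I : Fin (4 + j) → Fin n) (d : Dat n M K) : Sm d.D (FR n M K j I d) :=
  contDiffOn_const.mul (d.rf.sm_fc (d.smT j) I)

theorem sm_U (a i : Fin n) (d : Dat n M K) : Sm d.D (U n M K a i d) :=
  ((d.rf.sm_th a i).sub contDiffOn_const).div_const _

theorem sm_W (i a b : Fin n) (d : Dat n M K) : Sm d.D (W n M K i a b d) :=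
  contDiffOn_const.mul (d.rf.sm_om i a b)

theorem abs_FR_le {j : ℕ} (hj : j ≤ M) (I : Fin (4 + j) → Fin n) (d : Dat n M K) {x : En n}
    (hx : x ∈ d.D.U) : |FR n M K j I d x| ≤ 1 := by
  have hρ := d.D.pos
  have hδ := d.hδ
  have h := d.rf.abs_fc_le hx (by positivity) (d.bd j hj x hx) I
  rw [FR, abs_mul, abs_of_pos (by positivity)]
  refine (mul_le_mul_of_nonneg_left h (by positivity)).trans (le_of_eq ?_)
  field_simp

theorem th_eq (d : Dat n M K) (x : En n) (a i : Fin n) :
    th d.G d.E x a i = d.δ * U n M K a i d x + if a = i then 1 else 0 := by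
  have := d.hδ.ne'
  rw [U]; field_simp; ring

theorem eul_U (a i : Fin n) (d : Dat n M K) {x : En n} (hx : x ∈ d.D.U) :
    eul (U n M K a i d) x + U n M K a i d x = ∑ b, x b / d.D.ρ * W n M K i a b d x := by
  have hρ := d.D.pos.ne'
  have hδ := d.hδ.ne'
  have h1 : eul (U n M K a i d) x = eul (fun y => th d.G d.E y a i) x / d.δ := by
    simp only [eul_eq]
    unfold U
    simp only [div_eq_mul_inv]
    rw [fderiv_mul_const (((d.rf.sm_th a i).da hx).sub_const _), fderiv_sub_const]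
    simp [mul_comm]
  have h2 : ∑ b, x b / d.D.ρ * W n M K i a b d x = (∑ b, om d.G d.E i x a b * x b) / d.δ := by
    rw [Finset.sum_div]
    refine Finset.sum_congr rfl fun b _ => ?_
    rw [W]; field_simp
  rw [h1, h2, U, ← add_div]
  congr 1
  linarith [d.rf.eq1 hx a i]

theorem eul_W (i a b : Fin n) (d : Dat n M K) {x : En n} (hx : x ∈ d.D.U) :
    eul (W n M K i a b d) x + W n M K i a b d x =
      ∑ e, (∑ c, FR n M K 0 ![a, b, c, e] d x * (x c / d.D.ρ)) * th d.G d.E x e i := by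
  have hρ := d.D.pos.ne'
  have hδ := d.hδ.ne'
  have h1 : eul (W n M K i a b d) x = d.D.ρ / d.δ * eul (fun y => om d.G d.E i y a b) x := by
    simp only [eul_eq]
    unfold W
    rw [fderiv_const_mul ((d.rf.sm_om i a b).da hx)]
    simp
  rw [h1, W, ← mul_add, d.rf.eq2_fc hx, Finset.mul_sum]
  refine Finset.sum_congr rfl fun e _ => ?_
  rw [← mul_assoc, Finset.mul_sum]
  congr 1
  refine Finset.sum_congr rfl fun c _ => ?_
  have : FR n M K 0 ![a, b, c, e] d x = d.D.ρ ^ 2 / d.δ * fc d.E (rmT d.G) ![a, b, c, e] x := rfl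
  rw [this]; field_simp

theorem bd_del {m : ℕ} : Bd (n := n) (fun d : Dat n M K => d.D) m fun d _ => d.δ :=
  Bd.const ⟨K, fun d => by rw [abs_of_pos d.hδ]; exact d.hK⟩

theorem abs_S_le (a b e : Fin n) (d : Dat n M K) {x : En n} (hx : x ∈ d.D.U) :
    |∑ c, FR n M K 0 ![a, b, c, e] d x * (x c / d.D.ρ)| ≤ n * (‖x‖ / d.D.ρ) := by
  refine (Finset.abs_sum_le_sum_abs _ _).trans ?_
  have : ∀ c, |FR n M K 0 ![a, b, c, e] d x * (x c / d.D.ρ)| ≤ ‖x‖ / d.D.ρ := fun c => by
    rw [abs_mul]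
    exact (mul_le_of_le_one_left (abs_nonneg _) (abs_FR_le (Nat.zero_le _) _ d hx)).trans
      (abs_coord_div_le d.D.pos x c)
  simpa using Finset.sum_le_sum fun c (_ : c ∈ Finset.univ) => this c

/-- bounds for `θ` and `ω` from bounds for the curvature -/
theorem bd_UW {m : ℕ} (hF : ∀ I, Bd (fun d : Dat n M K => d.D) m (FR n M K 0 I)) (i : Fin n) :
    (∀ a, Bd (fun d : Dat n M K => d.D) m (U n M K a i)) ∧
      ∀ a b, Bd (fun d : Dat n M K => d.D) m (W n M K i a b) := by
  set S : Fin n → Fin n → Fin n → Dat n M K → En n → ℝ := fun a b e d x =>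
    ∑ c, FR n M K 0 ![a, b, c, e] d x * (x c / d.D.ρ) with hS
  have hSb : ∀ a b e, Bd (fun d : Dat n M K => d.D) m (S a b e) := fun a b e =>
    Bd.sum _ fun c _ => (hF _).mul (Bd.coord c)
  let L : Fin n ⊕ Fin n × Fin n → Fin n ⊕ Fin n × Fin n → Dat n M K → En n → ℝ := fun p q =>
    match p, q with
    | .inl a, .inr (a', b) => fun d x => (if a' = a then 1 else 0) * (x b / d.D.ρ)
    | .inr (a, b), .inl e => fun d x => d.δ * S a b e d x
    | _, _ => fun _ _ => 0
  have key := Bd.ode (r := fun d : Dat n M K => d.D) (L := L) (A := 1 + |K| * n)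
    (by positivity) ?_ m 0
    (u := Sum.elim (fun a => U n M K a i) fun p => W n M K i p.1 p.2)
    (f := Sum.elim (fun _ _ _ => 0) fun p => S p.1 p.2 i) ?_ ?_ ?_ ?_
  · exact ⟨fun a => key (.inl a), fun a b => key (.inr (a, b))⟩
  · intro p q d x hx
    have h0 : 0 ≤ ‖x‖ / d.D.ρ := div_nonneg (norm_nonneg _) d.D.pos.le
    have hKn : 0 ≤ |K| * n := by positivity
    rcases p with a | ⟨a, b⟩ <;> rcases q with e | ⟨a', b'⟩
    · simp only [L, abs_zero]; positivity
    · simp only [L, abs_mul]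
      have h1 : |(if a' = a then 1 else 0 : ℝ)| ≤ 1 := by split_ifs <;> simp
      refine (mul_le_of_le_one_left (abs_nonneg _) h1).trans
        ((abs_coord_div_le d.D.pos x b').trans ?_)
      nlinarith
    · simp only [L, abs_mul, abs_of_pos d.hδ]
      have h1 := abs_S_le a b e d hx
      have h2 : d.δ ≤ |K| := d.hK.trans (le_abs_self K)
      calc d.δ * |S a b e d x| ≤ |K| * (n * (‖x‖ / d.D.ρ)) := by gcongr
        _ ≤ _ := by nlinarith
    · simp only [L, abs_zero]; positivity
  · rintro (a | ⟨a, b⟩) d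
    · exact sm_U a i d
    · exact sm_W i a b d
  · rintro (a | ⟨a, b⟩) d x hx
    · simp only [Sum.elim_inl, Sum.elim_inr, Fintype.sum_sum_type, Fintype.sum_prod_type, L,
        zero_mul, Finset.sum_const_zero, zero_add, add_zero, Nat.cast_one, one_mul, ite_mul,
        eul_U a i d hx]
      rw [Finset.sum_comm]
      simp
    · simp only [Sum.elim_inl, Sum.elim_inr, Fintype.sum_sum_type, L,
        zero_mul, Finset.sum_const_zero, zero_add, add_zero, Nat.cast_one, one_mul,
        eul_W i a b d hx, d.th_eq, mul_add, Finset.sum_add_distrib, mul_ite, mul_one, mul_zero,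
        Finset.sum_ite_eq', Finset.mem_univ, if_true]
      congr 1
      exact Finset.sum_congr rfl fun e _ => by simp only [hS]; ring
  · rintro (a | ⟨a, b⟩) (e | ⟨a', b'⟩)
    · exact Bd.const' 0
    · exact (Bd.const' _).mul (Bd.coord b')
    · exact bd_del.mul (hSb a b e)
    · exact Bd.const' 0
  · rintro (a | ⟨a, b⟩)
    · exact Bd.const' 0
    · exact hSb a b i

theorem bd_FR (m : ℕ) : ∀ j, j + m ≤ M → ∀ I, Bd (fun d : Dat n M K => d.D) m (FR n M K j I) := by
  have h0 : ∀ j ≤ M, ∀ I, Bd (fun d : Dat n M K => d.D) 0 (FR n M K j I) := fun j hj I =>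
    ⟨sm_FR j I, 1, fun d _ hx => abs_FR_le hj I d hx⟩
  induction m with
  | zero => exact h0
  | succ m ih =>
    intro j hj I
    refine ⟨h0 j (by omega) I, fun i => ?_⟩
    obtain ⟨hU, hW⟩ := bd_UW (ih 0 (by omega)) i
    have h1 : Bd (fun d : Dat n M K => d.D) m fun d x =>
        ∑ c, (d.δ * U n M K c i d x + if c = i then 1 else 0) *
            FR n M K (j + 1) (Fin.cons c I : Fin (4 + j + 1) → Fin n) d x +
          ∑ s, ∑ b, d.δ * W n M K i b (I s) d x * FR n M K j (update I s b) d x :=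
      (Bd.sum _ fun c _ => ((bd_del.mul (hU c)).add (Bd.const' _)).mul
        (ih (j + 1) (by omega) _)).add
        (Bd.sum _ fun s _ => Bd.sum _ fun b _ => (bd_del.mul (hW b (I s))).mul (ih j (by omega) _))
    refine h1.congr fun d x hx => ?_
    have hρ := d.D.pos.ne'
    have hδ := d.hδ.ne'
    have e : pderiv i (FR n M K j I d) x =
        d.D.ρ ^ (j + 2) / d.δ * pderiv i (fc d.E (covN d.G (rmT d.G) j) I) x := by
      unfold FR
      rw [pd_mul (differentiableAt_const _) ((d.rf.sm_fc (d.smT j) I).da hx), pd_const]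
      ring
    simp only [F.D]
    rw [e, d.rf.pd_fc hx (d.smT j), mul_add, mul_add, Finset.mul_sum, Finset.mul_sum,
      Finset.mul_sum, Finset.mul_sum]
    congr 1
    · refine Finset.sum_congr rfl fun c _ => ?_
      have : FR n M K (j + 1) (Fin.cons c I : Fin (4 + j + 1) → Fin n) d x =
          d.D.ρ ^ (j + 1 + 2) / d.δ *
            fc d.E (cov d.G (covN d.G (rmT d.G) j)) (Fin.cons c I) x := rfl
      rw [← d.th_eq, this]
      ring
    · refine Finset.sum_congr rfl fun s _ => ?_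
      rw [Finset.mul_sum, Finset.mul_sum]
      refine Finset.sum_congr rfl fun b _ => ?_
      rw [W, FR]
      field_simp

theorem bd_U (a i : Fin n) : Bd (fun d : Dat n M K => d.D) M (U n M K a i) :=
  (bd_UW (bd_FR M 0 (by omega)) i).1 a


theorem metric_sub (d : Dat n M K) {x : En n} (hx : x ∈ d.D.U) (a b : Fin n) :
    (d.G x a b - (1 : Matrix (Fin n) (Fin n) ℝ) a b) / d.δ =
      ∑ c, d.δ * U n M K c a d x * U n M K c b d x + U n M K b a d x + U n M K a b d x := by
  have hδ := d.hδ.ne'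
  rw [d.rf.metric_eq hx, Matrix.mul_apply, div_eq_iff hδ]
  simp only [Matrix.transpose_apply, d.th_eq, add_mul, mul_add, Finset.sum_add_distrib, mul_ite,
    ite_mul, mul_one, one_mul, mul_zero, zero_mul, Finset.sum_ite_eq', Finset.mem_univ, if_true,
    Matrix.one_apply, Finset.sum_mul]
  have : ∑ c, d.δ * U n M K c a d x * (d.δ * U n M K c b d x) =
      ∑ c, d.δ * U n M K c a d x * U n M K c b d x * d.δ :=
    Finset.sum_congr rfl fun c _ => by ring
  rw [this]
  by_cases hab : a = b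
  · subst hab; simp only [if_true]; ring
  · simp only [hab, Ne.symm hab, if_false]; ring

theorem bd_metric (a b : Fin n) : Bd (fun d : Dat n M K => d.D) M
    fun d x => (d.G x a b - (1 : Matrix (Fin n) (Fin n) ℝ) a b) / d.δ :=
  (((Bd.sum _ fun c _ => (bd_del.mul (bd_U c a)).mul (bd_U c b)).add (bd_U b a)).add
    (bd_U a b)).congr fun d _ hx => d.metric_sub hx a b

end Dat

end Crest.Agent.N207.F
end
end

-- ▼ part N207/F/Nc8

/-!
# Row 207, block F1 (helper7): `C^k` bounds of a metric in normal coordinates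

`NC G U R`: `G` is a metric in normal coordinates on the open star-shaped set `U ⊆ ball 0 R`.
`c0_bound`, `ck_bound`, `jet_bound`: the constants depend only on the dimension, on the order and on
the upper bound `K` of the scale invariant curvature bound `δ`.
-/

set_option autoImplicit false

open Set Metric Filter Topology Matrix Function
open scoped ContDiff BigOperators
open Crest.GeometryTopology.CoordMetric Crest.GeometryTopology.ChartCurvature
  Crest.GeometryTopology.MetricFamily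

noncomputable section

namespace Crest.Agent.N207.F

variable {n : ℕ}

/-- normal coordinates on an open star-shaped set `U ⊆ ball 0 R` -/
structure NC (G : MetricField n) (U : Set (En n)) (R : ℝ) : Prop where
  riem : IsRiemannianOn G U
  star : StarConvex ℝ 0 U
  zero : (0 : En n) ∈ U
  sub : U ⊆ ball 0 R
  one : G 0 = 1
  rad : ∀ x ∈ U, ∀ k, ∑ i, ∑ j, christoffel G x k i j * x i * x j = 0

theorem NC.of_ball {G : MetricField n} {R : ℝ} (hR : 0 < R) (hG : IsRiemannianOn G (ball 0 R))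
    (h1 : G 0 = 1)
    (hrad : ∀ x ∈ ball (0 : En n) R, ∀ k, ∑ i, ∑ j, christoffel G x k i j * x i * x j = 0) :
    NC G (ball 0 R) R :=
  ⟨hG, (convex_ball 0 R).starConvex (mem_ball_self hR), mem_ball_self hR, subset_rfl, h1, hrad⟩

/-- the domain -/
def NC.dom {G : MetricField n} {U : Set (En n)} {R : ℝ} (h : NC G U R) : Dom n :=
  ⟨U, R, h.riem.isOpen, h.star, h.zero, h.sub⟩

theorem NC.exists_dat {G : MetricField n} {U : Set (En n)} {R : ℝ} (h : NC G U R) {M : ℕ}
    {K δ : ℝ} (hδ : 0 < δ) (hK : δ ≤ K)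
    (hb : ∀ j ≤ M, ∀ x ∈ U, nsq G (covN G (rmT G) j) x ≤ (δ / R ^ (j + 2)) ^ 2) :
    ∃ d : Dat n M K, d.D = h.dom ∧ d.δ = δ ∧ d.G = G := by
  obtain ⟨E, hE⟩ := exists_RF (ρ := h.dom) h.riem h.one h.rad
  exact ⟨⟨h.dom, δ, G, E, hδ, hK, hE, hb⟩, rfl, rfl, rfl⟩

namespace Dat

variable {M : ℕ} {K : ℝ}

theorem ray_div (d : Dat n M K) (x : En n) {t : ℝ} (ht : t ∈ Icc (0 : ℝ) 1) :
    ‖t • x‖ / d.D.ρ ≤ ‖x‖ / d.D.ρ := by
  refine div_le_div_of_nonneg_right ?_ d.D.pos.le
  rw [norm_smul, Real.norm_of_nonneg ht.1]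
  exact mul_le_of_le_one_left (norm_nonneg _) ht.2

theorem exists_W_le (n M : ℕ) (K : ℝ) : ∃ C, 0 ≤ C ∧ ∀ (d : Dat n M K) (i a b : Fin n),
    ∀ x ∈ d.D.U, |W n M K i a b d x| ≤ C * (‖x‖ / d.D.ρ) := by
  obtain ⟨C, hC0, hC⟩ := exists_bd0 (r := fun d : Dat n M K => d.D)
    (f := fun (p : Fin n × Fin n) d x => th d.G d.E x p.1 p.2) fun p =>
      (((bd_del.mul (bd_U p.1 p.2)).add (Bd.const' _)).congr
        fun d x _ => d.th_eq x p.1 p.2).bd0
  refine ⟨n * (n * C), by positivity, fun d i a b x hx => ode_ray (sm_W i a b d) hx fun t ht => ?_⟩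
  have hy := ray_mem hx ht
  rw [eul_W i a b d hy]
  refine (Finset.abs_sum_le_sum_abs _ _).trans ?_
  have h0 : 0 ≤ ‖x‖ / d.D.ρ := div_nonneg (norm_nonneg _) d.D.pos.le
  have : ∀ e, |(∑ c, FR n M K 0 ![a, b, c, e] d (t • x) * ((t • x) c / d.D.ρ)) *
      th d.G d.E (t • x) e i| ≤ n * C * (‖x‖ / d.D.ρ) := fun e => by
    rw [abs_mul]
    have h1 := (abs_S_le a b e d hy).trans
      (mul_le_mul_of_nonneg_left (d.ray_div x ht) (Nat.cast_nonneg n))
    have h2 := hC (e, i) d _ hy
    calc _ ≤ n * (‖x‖ / d.D.ρ) * C := mul_le_mul h1 h2 (abs_nonneg _) (by positivity)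
      _ = _ := by ring
  refine (Finset.sum_le_sum fun e _ => this e).trans (le_of_eq ?_)
  simp only [Finset.sum_const, Finset.card_univ, Fintype.card_fin, nsmul_eq_mul]
  ring

theorem exists_U_le (n M : ℕ) (K : ℝ) : ∃ C, 0 ≤ C ∧ ∀ (d : Dat n M K) (a i : Fin n),
    ∀ x ∈ d.D.U, |U n M K a i d x| ≤ C * (‖x‖ / d.D.ρ) ^ 2 := by
  obtain ⟨C, hC0, hC⟩ := exists_W_le n M K
  refine ⟨n * C, by positivity, fun d a i x hx => ode_ray (sm_U a i d) hx fun t ht => ?_⟩
  have hy := ray_mem hx ht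
  rw [eul_U a i d hy]
  refine (Finset.abs_sum_le_sum_abs _ _).trans ?_
  have h0 : 0 ≤ ‖x‖ / d.D.ρ := div_nonneg (norm_nonneg _) d.D.pos.le
  have : ∀ b, |(t • x) b / d.D.ρ * W n M K i a b d (t • x)| ≤ C * (‖x‖ / d.D.ρ) ^ 2 :=
    fun b => by
      rw [abs_mul]
      have h1 := (abs_coord_div_le d.D.pos (t • x) b).trans (d.ray_div x ht)
      have h2 := (hC d i a b _ hy).trans (mul_le_mul_of_nonneg_left (d.ray_div x ht) hC0)
      calc _ ≤ (‖x‖ / d.D.ρ) * (C * (‖x‖ / d.D.ρ)) := mul_le_mul h1 h2 (abs_nonneg _) h0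
        _ = _ := by ring
  refine (Finset.sum_le_sum fun b _ => this b).trans (le_of_eq ?_)
  simp only [Finset.sum_const, Finset.card_univ, Fintype.card_fin, nsmul_eq_mul]
  ring

theorem exists_metric_le (n M : ℕ) (K : ℝ) : ∃ C, 0 ≤ C ∧ ∀ (d : Dat n M K) (a b : Fin n),
    ∀ x ∈ d.D.U, |d.G x a b - (1 : Matrix (Fin n) (Fin n) ℝ) a b| ≤
      C * d.δ * (‖x‖ / d.D.ρ) ^ 2 := by
  obtain ⟨C, hC0, hC⟩ := exists_U_le n M K
  refine ⟨n * (|K| * C * C) + C + C, by positivity, fun d a b x hx => ?_⟩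
  have hδ := d.hδ
  have h := d.metric_sub hx a b
  rw [div_eq_iff hδ.ne'] at h
  rw [h, abs_mul, abs_of_pos hδ, mul_right_comm]
  refine mul_le_mul_of_nonneg_right ?_ hδ.le
  set q := (‖x‖ / d.D.ρ) ^ 2 with hq
  have hq0 : 0 ≤ q := by positivity
  have hq1 : q ≤ 1 := pow_le_one₀ (div_nonneg (norm_nonneg _) d.D.pos.le)
    ((div_le_one d.D.pos).2 (d.D.norm_lt hx).le)
  have h1 : ∀ c, |d.δ * U n M K c a d x * U n M K c b d x| ≤ |K| * C * C * q := fun c => by
    rw [abs_mul, abs_mul, abs_of_pos hδ]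
    have h2 : |U n M K c a d x| ≤ C := (hC d c a x hx).trans (mul_le_of_le_one_right hC0 hq1)
    have h3 : d.δ ≤ |K| := d.hK.trans (le_abs_self K)
    calc _ ≤ |K| * C * (C * q) := mul_le_mul (mul_le_mul h3 h2 (abs_nonneg _) (abs_nonneg _))
          (hC d c b x hx) (abs_nonneg _) (by positivity)
      _ = _ := by ring
  have h4 : |∑ c, d.δ * U n M K c a d x * U n M K c b d x| ≤ n * (|K| * C * C * q) := by
    refine (Finset.abs_sum_le_sum_abs _ _).trans ?_
    simpa using Finset.sum_le_sum fun c (_ : c ∈ Finset.univ) => h1 c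
  refine (abs_add_three _ _ _).trans ?_
  have := hC d b a x hx
  have := hC d a b x hx
  nlinarith

end Dat

/-- **`C⁰` bound in normal coordinates.** -/
theorem c0_bound (n : ℕ) (K : ℝ) : ∃ C, 0 ≤ C ∧ ∀ {G : MetricField n} {U : Set (En n)} {R δ : ℝ},
    NC G U R → 0 < δ → δ ≤ K → (∀ x ∈ U, nsq G (rmT G) x ≤ (δ / R ^ 2) ^ 2) →
      ∀ x ∈ U, ∀ a b, |G x a b - (1 : Matrix (Fin n) (Fin n) ℝ) a b| ≤ C * δ * (‖x‖ / R) ^ 2 := by
  obtain ⟨C, hC0, hC⟩ := Dat.exists_metric_le n 0 K
  refine ⟨C, hC0, fun {G U R δ} h hδ hK hb x hx a b => ?_⟩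
  obtain ⟨d, h1, rfl, rfl⟩ := h.exists_dat (M := 0) hδ hK fun j hj x hx => by
    obtain rfl : j = 0 := by omega
    exact hb x hx
  have := hC d a b x (by rw [h1]; exact hx)
  rwa [h1] at this

/-- **`C^M` bound in normal coordinates.** -/
theorem ck_bound (n M : ℕ) (K : ℝ) : ∃ C, 0 ≤ C ∧
    ∀ {G : MetricField n} {U : Set (En n)} {R δ : ℝ}, NC G U R → 0 < δ → δ ≤ K →
      (∀ j ≤ M, ∀ x ∈ U, nsq G (covN G (rmT G) j) x ≤ (δ / R ^ (j + 2)) ^ 2) →
      ∀ j ≤ M, ∀ x ∈ U, ∀ a b, ‖iteratedFDeriv ℝ j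
        (fun y => G y a b - (1 : Matrix (Fin n) (Fin n) ℝ) a b) x‖ ≤ C * δ / R ^ j := by
  choose C hC0 hC using fun p : Fin n × Fin n =>
    (Dat.bd_metric (M := M) (K := K) p.1 p.2).norm_iteratedFDeriv_le
  refine ⟨∑ p, C p, Finset.sum_nonneg fun p _ => hC0 p,
    fun {G U R δ} h hδ hK hb j hj x hx a b => ?_⟩
  obtain ⟨d, h1, rfl, rfl⟩ := h.exists_dat hδ hK hb
  have h2 := (hC (a, b) j hj d x (by rw [h1]; exact hx)).trans
    (Finset.single_le_sum (f := C) (fun p _ => hC0 p) (Finset.mem_univ _))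
  have hR : 0 < R := h.dom.pos
  have hc : ContDiffAt ℝ j (fun y => d.G y a b - (1 : Matrix (Fin n) (Fin n) ℝ) a b) x :=
    ((((h.riem.contDiffOn a b).contDiffAt (h.riem.isOpen.mem_nhds hx)).sub
      contDiffAt_const)).of_le (by exact_mod_cast le_top)
  have e : (fun y => (d.G y a b - (1 : Matrix (Fin n) (Fin n) ℝ) a b) / d.δ) =
      fun y => d.δ⁻¹ • (d.G y a b - (1 : Matrix (Fin n) (Fin n) ℝ) a b) := by
    funext y; rw [smul_eq_mul, div_eq_inv_mul]
  simp only [h1] at h2
  rw [e, iteratedFDeriv_const_smul_apply' hc, norm_smul, Real.norm_of_nonneg (by positivity)] at h2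
  change R ^ j * _ ≤ _ at h2
  rw [le_div_iff₀ (by positivity)]
  have h3 := mul_le_mul_of_nonneg_right h2 hδ.le
  refine le_trans (le_of_eq ?_) h3
  field_simp

/-- derivatives of positive order of the metric itself -/
theorem jet_bound (n M : ℕ) (K : ℝ) : ∃ C, 0 ≤ C ∧
    ∀ {G : MetricField n} {U : Set (En n)} {R δ : ℝ}, NC G U R → 0 < δ → δ ≤ K →
      (∀ j ≤ M, ∀ x ∈ U, nsq G (covN G (rmT G) j) x ≤ (δ / R ^ (j + 2)) ^ 2) →
      ∀ j ≤ M, j ≠ 0 → ∀ x ∈ U, ∀ a b,
        ‖iteratedFDeriv ℝ j (fun y => G y a b) x‖ ≤ C * δ / R ^ j := by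
  obtain ⟨C, hC0, hC⟩ := ck_bound n M K
  refine ⟨C, hC0, fun {G U R δ} h hδ hK hb j hj hj0 x hx a b => ?_⟩
  have h1 := hC h hδ hK hb j hj x hx a b
  have hc : ContDiffAt ℝ j (fun y => G y a b) x :=
    ((h.riem.contDiffOn a b).contDiffAt (h.riem.isOpen.mem_nhds hx)).of_le
      (by exact_mod_cast le_top)
  rwa [fun_iteratedFDeriv_sub_apply hc contDiffAt_const, iteratedFDeriv_const_of_ne hj0,
    Pi.zero_apply, sub_zero] at h1

end Crest.Agent.N207.F
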