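import Crest.Agent.N207.F.InjC
import Crest.Agent.N207.F.Nc8
import Crest.Agent.N207.AI.Par2
import Crest.Agent.R249.B2Pull_474
import Crest.Agent.R226.GeoThm_542
import Crest.Agent.R226.NearDiagFinal_996
import Crest.Agent.R244.CFCoord
import Crest.Agent.N207.Sk.Defs

-- ▼ part N207/F/Exp
section

/-!
# Row 207, block F2 (helper26): the exponential map in an orthonormal frame
-/

set_option autoImplicit false
set_option linter.unusedSectionVars false

open Bundle Set Filter Topology Metric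
open scoped ContDiff Manifold
open Crest.GeometryTopology.CoordMetric
open Crest.Agent.R244.CF (IsLC gB Gam gB_apply Gam_apply gB_single isLC_of_isRiemannianOn)
open Crest.Agent.R226 Crest.Agent.R226.ChartMet842
open Crest.Agent.R249.B2Iso_474 Crest.Agent.R249.B2Pull_474

noncomputable section

namespace Crest.Agent.N207.F

section gen

variable {n : ℕ} {N : Type*} [MetricSpace N] [ChartedSpace (EuclideanSpace ℝ (Fin n)) N]
  [IsManifold (𝓡 n) ∞ N]
  [RiemannianBundle (fun p : N => TangentSpace (𝓡 n) p)]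
  [IsContMDiffRiemannianBundle (𝓡 n) ∞ (EuclideanSpace ℝ (Fin n))
    (fun p : N => TangentSpace (𝓡 n) p)]
  [IsRiemannianManifold (𝓡 n) N]

theorem gen_frame (p : N) : ∃ I : En n →L[ℝ] En n, ∀ u v,
    @inner ℝ (TangentSpace (𝓡 n) p) _ (I u) (I v) = inner ℝ u v := by
  have : FiniteDimensional ℝ (TangentSpace (𝓡 n) p) :=
    inferInstanceAs (FiniteDimensional ℝ (En n))
  have hfr : Module.finrank ℝ (TangentSpace (𝓡 n) p) = n :=
    finrank_euclideanSpace_fin (𝕜 := ℝ) (n := n)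
  let b : OrthonormalBasis (Fin n) ℝ (TangentSpace (𝓡 n) p) :=
    (stdOrthonormalBasis ℝ (TangentSpace (𝓡 n) p)).reindex (finCongr hfr)
  let L : En n →ₗ[ℝ] En n := b.repr.symm.toLinearEquiv.toLinearMap
  exact ⟨LinearMap.toContinuousLinearMap L, fun u v => b.repr.symm.inner_map_map u v⟩

theorem gen_contDiff {F : En n → N} (hF : ContMDiff 𝓘(ℝ, En n) (𝓡 n) ∞ F) (u v : En n) :
    ContDiff ℝ ∞ fun y => inner ℝ (mfderiv 𝓘(ℝ, En n) (𝓡 n) F y u)
      (mfderiv 𝓘(ℝ, En n) (𝓡 n) F y v) := by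
  have h2 := ((contDiff_pbm hF).clm_apply (contDiff_const (c := u))).clm_apply
    (contDiff_const (c := v))
  have e : (fun y => pbm F y u v) = _ := funext fun y =>
    pbm_apply ((hF y).mdifferentiableAt (by simp)) u v
  rwa [e] at h2

theorem gen_exp (G : GeoData n N) (p : N) (I : En n →L[ℝ] En n)
    (hI : ∀ u v, @inner ℝ (TangentSpace (𝓡 n) p) _ (I u) (I v) = inner ℝ u v) :
    (∀ u : En n, (mfderiv 𝓘(ℝ, En n) (𝓡 n) (FX G p I) 0 u : En n) = I u) ∧
    (∀ u v : En n, inner ℝ (mfderiv 𝓘(ℝ, En n) (𝓡 n) (FX G p I) 0 u)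
      (mfderiv 𝓘(ℝ, En n) (𝓡 n) (FX G p I) 0 v) = inner ℝ u v) ∧
    (∀ (y : En n) (s t : ℝ), dist (FX G p I (s • y)) (FX G p I (t • y)) ≤ |s - t| * ‖y‖) ∧
    ∀ q, ∃ y, FX G p I y = q ∧ ‖y‖ = dist p q := by
  have hs := contMDiff_FX G p I
  have h0 := FX_zero G p I
  have hd : ∀ u : En n, (mfderiv 𝓘(ℝ, En n) (𝓡 n) (FX G p I) 0 u : En n) = I u := fun u => by
    have a1 := fderiv_FC_FX G p I u
    rw [fderiv_FC (y₀ := p) ((hs 0).mdifferentiableAt (by simp))
      (by rw [h0]; exact mem_chart_source _ _)] at a1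
    rw [← a1]
    exact ((LocalNearThm996.dC_congr (n := n) p h0 _).trans (dC_self _ _)).symm
  have hn : ∀ y : En n, @norm (TangentSpace (𝓡 n) p) _ (I y) = ‖y‖ := fun y => by
    have a1 := (real_inner_self_eq_norm_sq (F := TangentSpace (𝓡 n) p) (I y)).symm.trans
      ((hI y y).trans (real_inner_self_eq_norm_sq y))
    exact (pow_left_inj₀ (norm_nonneg _) (norm_nonneg _) two_ne_zero).1 a1
  have hsurj : Function.Surjective I := by
    refine (LinearMap.injective_iff_surjective (f := (I : En n →ₗ[ℝ] En n))).1 ?_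
    rw [injective_iff_map_eq_zero]
    intro u hu
    have a1 := hn u
    have a2 : I u = 0 := hu
    rw [a2] at a1
    exact norm_eq_zero.1 (a1.symm.trans (norm_zero (E := TangentSpace (𝓡 n) p)))
  refine ⟨hd, fun u v => ?_, fun y s t => ?_, fun q => ?_⟩
  · rw [← hI, ← hd, ← hd]
    exact inner_congr h0 _ _
  · have a1 := G.dist_le p (I y) s t
    rw [hn] at a1
    have a2 : ∀ s : ℝ, FX G p I (s • y) = G.ex p (s • (I y : TangentSpace (𝓡 n) p)) :=
      fun s => by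
        show G.ex p (I (s • y)) = _
        rw [map_smul]
    rw [a2, a2]
    exact a1
  · obtain ⟨v, a1, a2⟩ := G.surj p q
    obtain ⟨y, rfl⟩ := hsurj v
    exact ⟨y, a1, (hn y).symm.trans a2⟩

end gen

variable {n : ℕ} {M : Type*} [TopologicalSpace M] [ChartedSpace (En n) M]
  [IsManifold 𝓘(ℝ, En n) ∞ M]

theorem sum_single' (X : En n) : X = ∑ i, X i • (EuclideanSpace.single i (1 : ℝ) : En n) := by
  ext k; simp [Finset.sum_apply, Pi.single_apply]

theorem gB_pm (m : Met n M) (Ψ : En n → M) (y X Y : En n) :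
    gB (m.pm Ψ) y X Y = m.inner (Ψ y) (mfderiv 𝓘(ℝ, En n) 𝓘(ℝ, En n) Ψ y X)
      (mfderiv 𝓘(ℝ, En n) 𝓘(ℝ, En n) Ψ y Y) := by
  rw [gB_apply]
  set L : En n →L[ℝ] En n := mfderiv 𝓘(ℝ, En n) 𝓘(ℝ, En n) Ψ y with hL
  set B : En n →L[ℝ] En n →L[ℝ] ℝ := m.inner (Ψ y) with hB
  have e : ∀ i j, m.pm Ψ y i j =
      B (L (EuclideanSpace.single i 1)) (L (EuclideanSpace.single j 1)) := fun _ _ => rfl
  show _ = B (L X) (L Y)
  conv_rhs => rw [sum_single' X, sum_single' Y]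
  simp only [e, map_sum, map_smul, sum_apply, smul_apply,
    smul_eq_mul, Finset.mul_sum]
  rw [Finset.sum_comm]
  refine Finset.sum_congr rfl fun i _ => Finset.sum_congr rfl fun j _ => by ring

/-- a smooth map is an immersion where its pull-back metric is positive -/
theorem inj_of_pos (m : Met n M) {Ψ : En n → M} {y : En n}
    (h : ∀ u, u ≠ 0 → 0 < gB (m.pm Ψ) y u u) :
    Function.Injective (mfderiv 𝓘(ℝ, En n) 𝓘(ℝ, En n) Ψ y) := by
  set L : En n →L[ℝ] En n := mfderiv 𝓘(ℝ, En n) 𝓘(ℝ, En n) Ψ y with hL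
  set B : En n →L[ℝ] En n →L[ℝ] ℝ := m.inner (Ψ y) with hB
  show Function.Injective L
  rw [injective_iff_map_eq_zero]
  intro u hu
  by_contra hne
  have h1 : 0 < B (L u) (L u) := (gB_pm m Ψ y u u) ▸ h u hne
  rw [hu, map_zero] at h1
  exact lt_irrefl _ h1

variable [T3Space M] [ConnectedSpace M]

theorem isoM_par (m : Met n M) {Ψ : En n → M} {U : Set (En n)} (hP : Par Ψ U) {y : En n}
    (hy : y ∈ U) : IsoM (n := n) (M := Sl m) (gB (m.pm Ψ)) Ψ y :=
  ⟨by filter_upwards [hP.isOpen.mem_nhds hy] with z hz using hP.contMDiffAt hz,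
    Eventually.of_forall fun z u v => gB_pm m Ψ z u v⟩

/-- the exponential map at `p` in an orthonormal frame -/
structure IsExp (m : Met n M) (p : M) (Ψ : En n → M) : Prop where
  sm : ContMDiff 𝓘(ℝ, En n) 𝓘(ℝ, En n) ∞ Ψ
  zero : Ψ 0 = p
  one : m.pm Ψ 0 = 1
  dist_le : ∀ (y : En n) (s t : ℝ), m.d (Ψ (s • y)) (Ψ (t • y)) ≤ |s - t| * ‖y‖
  surj : ∀ q, ∃ y, Ψ y = q ∧ ‖y‖ = m.d p q
  rad : ∀ U, Par Ψ U → ∀ x ∈ U, ∀ k,
    ∑ i, ∑ j, christoffel (m.pm Ψ) x k i j * x i * x j = 0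

namespace IsExp

variable {m : Met n M} {p : M} {Ψ : En n → M} (h : IsExp m p Ψ)
include h

theorem d_le (y : En n) : m.d (Ψ y) p ≤ ‖y‖ := by
  have := h.dist_le y 1 0
  rwa [one_smul, zero_smul, h.zero, sub_zero, abs_one, one_mul] at this

theorem mem_ball {y : En n} {r : ℝ} (hy : y ∈ ball (0 : En n) r) : Ψ y ∈ m.ball p r :=
  lt_of_le_of_lt (h.d_le y) (mem_ball_zero_iff.1 hy)

theorem image_ball (r : ℝ) : Ψ '' ball 0 r = m.ball p r := by
  refine subset_antisymm (by rintro _ ⟨y, hy, rfl⟩; exact h.mem_ball hy) fun q hq => ?_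
  obtain ⟨y, h1, h2⟩ := h.surj q
  refine ⟨y, mem_ball_zero_iff.2 ?_, h1⟩
  rw [h2]
  exact lt_of_eq_of_lt (dist_comm (α := Sl m) p q) hq

theorem nc {U : Set (En n)} {R : ℝ} (hP : Par Ψ U) (hs : StarConvex ℝ 0 U) (h0 : (0 : En n) ∈ U)
    (hR : U ⊆ ball 0 R) : NC (m.pm Ψ) U R :=
  ⟨hP.riem m, hs, h0, hR, h.one, h.rad U hP⟩

theorem contDiff_pm (i j : Fin n) : ContDiff ℝ ∞ fun y => m.pm Ψ y i j := by
  have := gen_contDiff (n := n) (N := Sl m) (F := Ψ)
  exact this h.sm _ _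

end IsExp

theorem exists_frame (m : Met n M) (p : M) :
    ∃ I : En n →L[ℝ] En n, ∀ u v, m.inner p (I u) (I v) = inner ℝ u v :=
  gen_frame (n := n) (N := Sl m) p

variable [CompactSpace M]

theorem nonempty_geo (m : Met n M) : Nonempty (GeoData n (Sl m)) := by
  obtain ⟨N⟩ := NearDiagFinal996.nonempty_nearDiag (n := n) (M := Sl m)
  exact GeoThm542.nonempty_geoData N

theorem exists_isExp' (m : Met n M) (p : M) (I : En n →L[ℝ] En n)
    (hI : ∀ u v, m.inner p (I u) (I v) = inner ℝ u v) :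
    ∃ Ψ : En n → M, IsExp m p Ψ ∧
      ∀ u : En n, (mfderiv 𝓘(ℝ, En n) 𝓘(ℝ, En n) Ψ 0 u : En n) = I u := by
  obtain ⟨G⟩ := nonempty_geo m
  obtain ⟨h1, h2, h3, h4⟩ := gen_exp (n := n) (N := Sl m) G p I hI
  refine ⟨FX (n := n) (M := Sl m) G p I, ⟨contMDiff_FX (M := Sl m) G p I, FX_zero G p I, ?_, h3, h4,
    fun U hP x hx k => ?_⟩, h1⟩
  · ext i j
    refine (h2 (EuclideanSpace.single i 1) (EuclideanSpace.single j 1)).trans ?_
    simp [Matrix.one_apply, EuclideanSpace.inner_single_left]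
  · have a1 := rad_of_isoM (M := Sl m) G (isLC_of_isRiemannianOn (hP.riem m)) hx
      (isoM_par m hP hx)
    rw [← Gam_apply, a1]
    rfl

theorem exists_isExp (m : Met n M) (p : M) : ∃ Ψ : En n → M, IsExp m p Ψ := by
  obtain ⟨I, hI⟩ := exists_frame m p
  obtain ⟨Ψ, h, -⟩ := exists_isExp' m p I hI
  exact ⟨Ψ, h⟩

end Crest.Agent.N207.F

end
end

-- ▼ part N207/F/Stat

/-!
# Row 207, block F (helper26): the static ball chart

`par_exp`: the exponential map is an almost Euclidean immersion on a ball of definite size;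
`static_chart`: it is injective on a smaller ball of definite size (volume lower bound).
-/

set_option autoImplicit false
set_option linter.unusedSectionVars false
set_option maxSynthPendingDepth 3

open Bundle Set Filter Topology Metric MeasureTheory
open scoped ContDiff Manifold ENNReal
open Crest.GeometryTopology.CoordMetric
open Crest.Agent.R244.CF (IsLC gB Gam gB_apply isLC_of_isRiemannianOn koszul_gB fderiv_gB_apply)
open Crest.Agent.R226
open Crest.Agent.R249.B2Pull_474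

noncomputable section

namespace Crest.Agent.N207.F

variable {n : ℕ}

theorem abs_coord_le (u : En n) (i : Fin n) : |u i| ≤ ‖u‖ := by
  simpa using PiLp.norm_apply_le u i

theorem gB_near {G : MetricField n} {x : En n} {ε : ℝ}
    (h : ∀ a b, |G x a b - (1 : Matrix (Fin n) (Fin n) ℝ) a b| ≤ ε) (u : En n) :
    |gB G x u u - ‖u‖ ^ 2| ≤ n ^ 2 * ε * ‖u‖ ^ 2 := by
  have e1 : ‖u‖ ^ 2 = ∑ i, ∑ j, (1 : Matrix (Fin n) (Fin n) ℝ) i j * u i * u j := by
    rw [EuclideanSpace.real_norm_sq_eq]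
    refine Finset.sum_congr rfl fun i _ => ?_
    simp [Matrix.one_apply, sq]
  have e2 : gB G x u u - ‖u‖ ^ 2
      = ∑ i, ∑ j, (G x i j - (1 : Matrix (Fin n) (Fin n) ℝ) i j) * u i * u j := by
    rw [gB_apply, e1, ← Finset.sum_sub_distrib]
    refine Finset.sum_congr rfl fun i _ => ?_
    rw [← Finset.sum_sub_distrib]
    exact Finset.sum_congr rfl fun j _ => by ring
  rw [e2]
  calc _ ≤ ∑ i, |∑ j, (G x i j - (1 : Matrix (Fin n) (Fin n) ℝ) i j) * u i * u j| :=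
        Finset.abs_sum_le_sum_abs _ _
    _ ≤ ∑ _i : Fin n, ∑ _j : Fin n, ε * ‖u‖ * ‖u‖ := by
        refine Finset.sum_le_sum fun i _ => (Finset.abs_sum_le_sum_abs _ _).trans
          (Finset.sum_le_sum fun j _ => ?_)
        rw [abs_mul, abs_mul]
        have h0 : 0 ≤ ε := (abs_nonneg _).trans (h i j)
        gcongr
        · exact h i j
        · exact abs_coord_le u i
        · exact abs_coord_le u j
    _ = _ := by simp; ring

theorem norm_Gam_le {G : MetricField n} {U : Set (En n)} (hG : IsRiemannianOn G U) {x : En n}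
    (hx : x ∈ U) (hlo : ∀ u, ‖u‖ ^ 2 ≤ 2 * gB G x u u) {A : ℝ} (hA0 : 0 ≤ A)
    (hA : ∀ i j k, |pderiv i (fun y => G y j k) x| ≤ A) (u : En n) :
    ‖Gam G x u u‖ ≤ 3 * n ^ 3 * A * ‖u‖ ^ 2 := by
  have hD : ∀ a b c : En n, |fderiv ℝ (gB G) x a b c| ≤ n ^ 3 * A * (‖a‖ * ‖b‖ * ‖c‖) := by
    intro a b c
    rw [fderiv_gB_apply hG hx]
    calc _ ≤ ∑ _i : Fin n, ∑ _j : Fin n, ∑ _k : Fin n, A * ‖a‖ * ‖b‖ * ‖c‖ := by
          refine (Finset.abs_sum_le_sum_abs _ _).trans (Finset.sum_le_sum fun i _ => ?_)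
          refine (Finset.abs_sum_le_sum_abs _ _).trans (Finset.sum_le_sum fun j _ => ?_)
          refine (Finset.abs_sum_le_sum_abs _ _).trans (Finset.sum_le_sum fun k _ => ?_)
          rw [abs_mul, abs_mul, abs_mul]
          gcongr
          · exact hA i j k
          · exact abs_coord_le a i
          · exact abs_coord_le b j
          · exact abs_coord_le c k
      _ = _ := by simp; ring
  set w := Gam G x u u with hw
  have h1 := hlo w
  have h2 : gB G x w w = _ := koszul_gB hG hx u u w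
  have h3 := abs_le.1 (hD u u w)
  have h4 := abs_le.1 (hD w u u)
  have h5 : ‖w‖ * ‖w‖ ≤ 3 * n ^ 3 * A * ‖u‖ ^ 2 * ‖w‖ := by nlinarith
  rcases (norm_nonneg w).eq_or_lt with h6 | h6
  · rw [← h6]; positivity
  · exact le_of_mul_le_mul_right h5 h6

universe u

/-- the exponential map is an almost Euclidean immersion on a ball of definite size -/
theorem par_exp (n : ℕ) (K : ℝ) : ∃ c, 0 < c ∧ c ≤ 1 ∧ ∀ {M : Type u} [TopologicalSpace M]
    [ChartedSpace (En n) M] [IsManifold 𝓘(ℝ, En n) ∞ M] [T3Space M] [ConnectedSpace M]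
    {m : Met n M} {p : M} {Ψ : En n → M} {r : ℝ}, IsExp m p Ψ → 0 < r →
    (∀ q ∈ m.ball p r, m.rm 0 q ≤ (K / r ^ 2) ^ 2) → Par Ψ (ball 0 (c * r)) ∧
      ∀ x ∈ ball (0 : En n) (c * r), ∀ v,
        ‖v‖ ^ 2 ≤ 2 * gB (m.pm Ψ) x v v ∧ gB (m.pm Ψ) x v v ≤ 2 * ‖v‖ ^ 2 := by
  set K' := |K| + 1 with hK'
  have hK0 : 0 < K' := by positivity
  obtain ⟨C, hC0, hC⟩ := c0_bound n K'
  set D : ℝ := 2 * n ^ 2 * (C * K') + 1 with hD
  have hD1 : 1 ≤ D := by rw [hD]; linarith [show 0 ≤ 2 * (n : ℝ) ^ 2 * (C * K') by positivity]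
  have hD0 : 0 < D := by linarith
  refine ⟨1 / D, by positivity, by rw [div_le_one hD0]; exact hD1,
    fun {M _ _ _ _ _ m p Ψ r} h hr hK => ?_⟩
  set G := m.pm Ψ with hG
  set ε : ℝ := C * K' * (1 / D) with hε
  have hcr : 1 / D * r ≤ r := by
    have : 1 / D ≤ 1 := by rw [div_le_one hD0]; exact hD1
    nlinarith
  have hnε : (n : ℝ) ^ 2 * ε ≤ 1 / 2 := by
    rw [hε, mul_one_div, ← mul_div_assoc, div_le_iff₀ hD0, hD]; linarith
  have hq : ∀ x, (∀ a b, |G x a b - (1 : Matrix (Fin n) (Fin n) ℝ) a b| ≤ ε) → ∀ v,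
      ‖v‖ ^ 2 ≤ 2 * gB G x v v ∧ gB G x v v ≤ 2 * ‖v‖ ^ 2 := fun x hx v => by
    have a1 := abs_le.1 (gB_near hx v)
    have a2 : (n : ℝ) ^ 2 * ε * ‖v‖ ^ 2 ≤ 1 / 2 * ‖v‖ ^ 2 := by gcongr
    constructor <;> nlinarith [sq_nonneg ‖v‖]
  have hpos : ∀ x, (∀ a b, |G x a b - (1 : Matrix (Fin n) (Fin n) ℝ) a b| ≤ ε) →
      ∀ v, v ≠ 0 → 0 < gB G x v v := fun x hx v hv => by
    have a1 := (hq x hx v).1
    have a2 : 0 < ‖v‖ ^ 2 := by positivity
    linarith
  have hε0 : 0 ≤ ε := by positivity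
  -- the bound on every ball where `Ψ` is an immersion
  have hb : ∀ ρ, 0 < ρ → ρ ≤ 1 / D * r → Par Ψ (ball 0 ρ) → ∀ x ∈ ball (0 : En n) ρ, ∀ a b,
      |G x a b - (1 : Matrix (Fin n) (Fin n) ℝ) a b| ≤ ε := by
    intro ρ h0 h1 hP x hx a b
    have hsub : ball (0 : En n) ρ ⊆ ball 0 r := ball_subset_ball (h1.trans hcr)
    have a1 := hC (h.nc hP ((convex_ball 0 ρ).starConvex (mem_ball_self h0)) (mem_ball_self h0)
      hsub) hK0 le_rfl (fun y hy => by
        refine le_trans (le_of_eq (hP.par_rm m 0 hy).symm) ((hK _ (h.mem_ball (hsub hy))).trans ?_)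
        rw [div_pow, div_pow, ← sq_abs K]
        gcongr
        linarith) x hx a b
    refine a1.trans ?_
    have a2 : ‖x‖ / r ≤ 1 / D := by
      rw [div_le_iff₀ hr]; exact (mem_ball_zero_iff.1 hx).le.trans h1
    have a3 : (‖x‖ / r) ^ 2 ≤ 1 / D := by
      have : 1 / D ≤ 1 := by rw [div_le_one hD0]; exact hD1
      have a4 : 0 ≤ ‖x‖ / r := by positivity
      nlinarith
    rw [hε]
    gcongr
  have hc : ∀ a b, Continuous fun y => G y a b := fun a b => (h.contDiff_pm a b).continuous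
  have hgc : Continuous (gB G) := by
    have a1 : ContDiff ℝ ∞ (gB G) := by
      unfold gB
      exact ContDiff.sum fun i _ => ContDiff.sum fun j _ =>
        (h.contDiff_pm i j).smul contDiff_const
    exact a1.continuous
  set U : Set (En n) := {x | ∀ v, v ≠ 0 → 0 < gB G x v v} with hU
  have hUo : IsOpen U := isOpen_iff_mem_nhds.2 fun x hx => eventually_pos hgc hx
  have hpar : ∀ ρ, ball (0 : En n) ρ ⊆ U → Par Ψ (ball 0 ρ) := fun ρ hρ =>
    ⟨isOpen_ball, h.sm.contMDiffOn, fun y hy => inj_of_pos m (hρ hy)⟩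
  have h0U : (0 : En n) ∈ U := hpos 0 fun a b => by rw [hG, h.one, sub_self, abs_zero]; exact hε0
  have hall : ball (0 : En n) (1 / D * r) ⊆ U := by
    intro x hx
    by_contra hxU
    have hK : IsCompact (closedBall (0 : En n) ‖x‖ ∩ Uᶜ) :=
      (isCompact_closedBall _ _).inter_right hUo.isClosed_compl
    obtain ⟨z, hz, hmin⟩ := hK.exists_isMinOn ⟨x, mem_closedBall_zero_iff.2 le_rfl, hxU⟩
      continuous_norm.continuousOn
    have hz1 : ‖z‖ ≤ ‖x‖ := mem_closedBall_zero_iff.1 hz.1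
    have hz0 : 0 < ‖z‖ := norm_pos_iff.2 fun e => hz.2 (e ▸ h0U)
    have hin : ball (0 : En n) ‖z‖ ⊆ U := fun y hy => by
      by_contra hyU
      have a1 := mem_ball_zero_iff.1 hy
      have a2 : ‖z‖ ≤ ‖y‖ := hmin ⟨mem_closedBall_zero_iff.2 (a1.le.trans hz1), hyU⟩
      linarith
    have a3 := hb ‖z‖ hz0 (hz1.trans (mem_ball_zero_iff.1 hx).le) (hpar _ hin)
    refine hz.2 (hpos z fun a b => ?_)
    have a4 : IsClosed {y : En n | |G y a b - (1 : Matrix (Fin n) (Fin n) ℝ) a b| ≤ ε} :=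
      isClosed_le ((hc a b).sub continuous_const).abs continuous_const
    have a5 := closure_minimal (fun y hy => a3 y hy a b) a4
    rw [closure_ball _ hz0.ne'] at a5
    exact a5 (mem_closedBall_zero_iff.2 le_rfl)
  exact ⟨hpar _ hall, fun x hx => hq x (hb _ (by positivity) le_rfl (hpar _ hall) x hx)⟩

/-- the exponential map is injective on a ball of definite size -/
theorem injOn_exp (n : ℕ) (K κ : ℝ) (hκ : 0 < κ) : ∃ c, 0 < c ∧ c ≤ 1 / 8 ∧
    ∀ {M : Type u} [TopologicalSpace M] [ChartedSpace (En n) M] [IsManifold 𝓘(ℝ, En n) ∞ M]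
    [T3Space M] [ConnectedSpace M] [MeasurableSpace M] [BorelSpace M] [CompactSpace M]
    {m : Met n M} {p : M} {Ψ : En n → M} {r : ℝ}, IsExp m p Ψ → 0 < r →
    (∀ j ≤ 1, ∀ q ∈ m.ball p r, m.rm j q ≤ (K / r ^ (j + 2)) ^ 2) →
    (∀ q ∈ m.ball p r, ∀ s ∈ Ioc 0 r, κ * s ^ n ≤ m.vol.real (m.ball q s)) →
    Par Ψ (ball 0 (c * r)) ∧ InjOn Ψ (ball 0 (c * r)) := by
  set K' := |K| + 1 with hK'
  have hK0 : 0 < K' := by positivity
  obtain ⟨c, hc0, hc1, hc⟩ := par_exp.{u} n K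
  obtain ⟨C, hC0, hC⟩ := jet_bound n 1 K'
  set om : ℝ := (volume (ball (0 : En n) 1)).toReal with hom
  have hom0 : 0 ≤ om := ENNReal.toReal_nonneg
  set N0 : ℕ := ⌈2 ^ n * 3 ^ n * om / κ⌉₊ with hN0
  set P : ℝ := (20 * ((N0 : ℝ) + 1)) ^ (N0 + 1) with hP
  have hP1 : 1 ≤ P := one_le_pow₀ (by linarith [Nat.cast_nonneg (α := ℝ) N0])
  set B : ℝ := 3 * n ^ 3 * (C * K') with hB
  have hB0 : 0 ≤ B := by positivity
  set c0 : ℝ := min (c / (12 * P)) (1 / (48 * B * P + 8)) with hc0d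
  have hc00 : 0 < c0 := lt_min (by positivity) (by positivity)
  have hc01 : c0 ≤ c / (12 * P) := min_le_left _ _
  have hc02 : c0 ≤ 1 / (48 * B * P + 8) := min_le_right _ _
  have hBP : 0 ≤ 48 * B * P := by positivity
  refine ⟨c0, hc00, hc02.trans (one_div_le_one_div_of_le (by norm_num) (by linarith)),
    fun {M _ _ _ _ _ _ _ _ m p Ψ r} h hr hK hV => ?_⟩
  obtain ⟨hPar, hq⟩ := hc h hr (hK 0 zero_le_one)
  obtain ⟨G⟩ := nonempty_geo m
  set R := c * r with hR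
  have hR0 : 0 < R := by positivity
  have hRr : R ≤ r := by rw [hR]; nlinarith
  have hsub : ball (0 : En n) R ⊆ ball 0 r := ball_subset_ball hRr
  have hriem := hPar.riem m
  have him : Imm0 (n := n) (M := Sl m) (gB (m.pm Ψ)) (Gam (m.pm Ψ)) Ψ R :=
    ⟨isLC_of_isRiemannianOn hriem, fun x hx => isoM_par m hPar hx, fun x hx v => (hq x hx v).1,
      fun x hx v => (hq x hx v).2⟩
  have hjet := hC (h.nc hPar ((convex_ball 0 R).starConvex (mem_ball_self hR0))
    (mem_ball_self hR0) hsub) hK0 le_rfl (fun j hj y hy => by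
      refine le_trans (le_of_eq (hPar.par_rm m j hy).symm)
        ((hK j hj _ (h.mem_ball (hsub hy))).trans ?_)
      rw [div_pow, div_pow, ← sq_abs K]
      gcongr
      linarith) 1 le_rfl one_ne_zero
  have hΓ : ∀ x ∈ ball (0 : En n) R, ∀ v, ‖Gam (m.pm Ψ) x v v‖ ≤ B / r * ‖v‖ ^ 2 := by
    intro x hx v
    refine (norm_Gam_le hriem hx (fun w => (hq x hx w).1) (A := C * K' / r) (by positivity)
      (fun i j k => ?_) v).trans (le_of_eq (by rw [hB]; ring))
    have a1 := hjet x hx j k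
    rw [norm_iteratedFDeriv_one, pow_one] at a1
    refine le_trans ?_ a1
    have a2 := (fderiv ℝ (fun y => m.pm Ψ y j k) x).le_opNorm (EuclideanSpace.single i (1 : ℝ))
    simpa [pderiv] using a2
  have hcov := him.cov G
  have hfib : Fib (X := Sl m) Ψ (R / 4) N0 := by
    intro N f q f1 f2 f3
    rcases Nat.eq_zero_or_pos N with hN | hN
    · omega
    have a1 := hcov.card_le (geo_of G) f1 (t := R / 4) f2 f3 (by linarith)
    have a2 : q ∈ m.ball p r := f3 ⟨0, hN⟩ ▸ h.mem_ball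
      (mem_ball_zero_iff.2 (by linarith [f2 ⟨0, hN⟩]))
    have a3 : ENNReal.ofReal (κ * (R / 4) ^ n) ≤ m.vol (m.ball q (R / 4)) :=
      ENNReal.ofReal_le_of_le_toReal (hV q a2 (R / 4) ⟨by positivity, by linarith⟩)
    have a4 : (N : ℝ≥0∞) * ENNReal.ofReal (κ * (R / 4) ^ n)
        ≤ 2 ^ n * volume (closedBall (0 : En n) (R / 4 + 2 * (R / 4))) :=
      le_trans (by gcongr; exact a3) a1
    rw [Measure.addHaar_closedBall _ _ (by positivity), finrank_euclideanSpace_fin] at a4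
    have a5 := ENNReal.toReal_mono (ENNReal.mul_ne_top (by simp)
      (ENNReal.mul_ne_top ENNReal.ofReal_ne_top measure_ball_lt_top.ne)) a4
    rw [ENNReal.toReal_mul, ENNReal.toReal_mul, ENNReal.toReal_mul,
      ENNReal.toReal_ofReal (by positivity), ENNReal.toReal_ofReal (by positivity),
      ENNReal.toReal_natCast, ENNReal.toReal_pow, ENNReal.toReal_ofNat, ← hom,
      show R / 4 + 2 * (R / 4) = 3 * (R / 4) by ring, mul_pow] at a5
    have a6 : (0 : ℝ) < (R / 4) ^ n := by positivity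
    have a7 : (N : ℝ) ≤ 2 ^ n * 3 ^ n * om / κ := by
      rw [le_div_iff₀ hκ]
      exact le_of_mul_le_mul_right (by linarith) a6
    exact Nat.cast_le.1 (a7.trans (Nat.le_ceil _))
  have hcP : c0 * (12 * P) ≤ c := by rwa [le_div_iff₀ (by positivity)] at hc01
  have hcB : c0 * (48 * B * P + 8) ≤ 1 := by rwa [le_div_iff₀ (by positivity)] at hc02
  refine ⟨hPar.mono isOpen_ball (ball_subset_ball ?_), ?_⟩
  · rw [hR]; gcongr; nlinarith
  · refine hcov.injOn (him.deck (by positivity) hΓ) (R' := R / 4) (by linarith) hfib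
      (by positivity) ?_ ?_
    · rw [← hP, hR]; nlinarith
    · rw [← hP]
      have e : 8 * (6 * (B / r)) * (c0 * r) * P = c0 * (48 * B * P) := by field_simp; ring
      rw [e]; nlinarith

/-- **the static ball chart** -/
theorem static_chart (K κ : ℝ) (hκ : 0 < κ) : ∃ c0, 0 < c0 ∧ c0 ≤ 1 / 8 ∧
    ∀ {M : Type u} [TopologicalSpace M] [ChartedSpace E4 M] [IsManifold 𝓘(ℝ, E4) ∞ M]
    [T3Space M] [ConnectedSpace M] [MeasurableSpace M] [BorelSpace M] [CompactSpace M]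
    (g : Met 4 M) (x : M) (r : ℝ), 0 < r →
    (∀ j ≤ 1, ∀ p ∈ g.ball x r, g.rm j p ≤ (K / r ^ (j + 2)) ^ 2) →
    (∀ p ∈ g.ball x r, ∀ s ∈ Ioc 0 r, κ * s ^ 4 ≤ g.vol.real (g.ball p s)) →
    ∃ φ : E4 → M, IsExp g x φ ∧ Sk.BallCh φ x (c0 * r) ∧
      (∀ s, φ '' ball 0 s = g.ball x s) ∧ NC (g.pm φ) (ball 0 (c0 * r)) (c0 * r) := by
  obtain ⟨c, h0, h1, hc⟩ := injOn_exp.{u} 4 K κ hκ
  refine ⟨c, h0, h1, fun {M _ _ _ _ _ _ _ _} g x r hr hK hV => ?_⟩
  obtain ⟨φ, hφ⟩ := exists_isExp g x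
  obtain ⟨a1, a2⟩ := hc hφ hr hK hV
  have a3 : (0 : E4) ∈ ball (0 : E4) (c * r) := mem_ball_self (by positivity)
  exact ⟨φ, hφ, ⟨hφ.zero, a1, a2⟩, hφ.image_ball,
    hφ.nc a1 ((convex_ball _ _).starConvex a3) a3 subset_rfl⟩

end Crest.Agent.N207.F

end
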